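import Vale.Agent.P181.H162.Round
import Vale.Agent.P181.H699.Low7
import Vale.Agent.P181.H914.Force2

set_option autoImplicit false

/-!
# P181, T9 = (C): the multi-level design

Rows `i < R`; `lam i` columns have length `> i`; the marks of the row `i` sit in the columns of
length exactly `rho i`; `rho i = l` for `i < l`. The free letter `q` has `u q i` marks in the row
`i`; the pure letters of class `i` are `(i, g)`, `g < w i`.
-/

namespace Vale.Agent.P181.H412

open Finset

/-- the numbers of the design -/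
structure DatB where
  R : ℕ
  l : ℕ
  k : ℕ
  N : ℕ
  lam : ℕ → ℕ
  w : ℕ → ℕ
  u : Fin N → ℕ → ℕ
  rho : ℕ → ℕ
  W : ℕ
  K : ℕ
  hlam : Antitone lam
  hl : 1 ≤ l
  hlR : l < R
  hrl : ∀ i < l, rho i = l
  hrg : ∀ i, l ≤ i → i < R → i < rho i ∧ rho i ≤ R
  h1 : ∀ i < R, lam i = k * w i + ∑ q, u q i
  hpos : ∀ i < R, 0 < w i
  hW : ∀ i < R, w i ≤ W
  hmark : ∀ j, 1 ≤ j → j ≤ R →
    lam j + ∑ i ∈ (range R).filter (fun i => rho i = j), ∑ q, u q i ≤ lam (j - 1)
  hroom : R * W + ∑ i ∈ (range R).filter (fun i => rho i = R), ∑ q, u q i ≤ lam (R - 1)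
  hK : ∀ q, ∑ i ∈ range l, u q i ≤ K
  hu0 : ∀ q, 1 ≤ u q 0
  hcap1 : ∀ i < l, R * (W / w i + 1) + (lam l / w i + 1) + K < k
  hcap2 : ∀ i < R, R * (W / w i + 1) ≤ k

namespace DatB

variable (P : DatB)

theorem R_pos : 0 < P.R := by have := P.hlR; omega

theorem rho_spec (i : ℕ) (hi : i < P.R) : i < P.rho i ∧ P.rho i ≤ P.R := by
  rcases Nat.lt_or_ge i P.l with h | h
  · rw [P.hrl i h]
    exact ⟨h, P.hlR.le⟩
  · exact P.hrg i h hi

/-- the marks -/
abbrev B : Type := Σ q : Fin P.N, Σ i : Fin P.R, Fin (P.u q i)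

/-- the number of marks in the columns of length exactly `j` -/
def Θ (j : ℕ) : ℕ := ∑ i ∈ (range P.R).filter (fun i => P.rho i = j), ∑ q, P.u q i

abbrev Bj (j : ℕ) : Type := {x : P.B // P.rho x.2.1 = j}

theorem card_Bj (j : ℕ) : Fintype.card (P.Bj j) = P.Θ j := by
  classical
  rw [Fintype.card_subtype, Finset.card_filter, Fintype.sum_sigma, Θ, Finset.sum_comm]
  refine Finset.sum_congr rfl fun q _ => ?_
  rw [Fintype.sum_sigma, Finset.sum_filter,
    ← Fin.sum_univ_eq_sum_range (fun i => if P.rho i = j then P.u q i else 0)]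
  refine Finset.sum_congr rfl fun i _ => ?_
  by_cases h : P.rho i = j
  · simp [h]
  · simp [h]

noncomputable def eB (j : ℕ) : P.Bj j ≃ Fin (P.Θ j) := Fintype.equivFinOfCardEq (P.card_Bj j)

/-- the column of a mark -/
noncomputable def kapj (j : ℕ) (x : P.Bj j) : ℕ := P.lam (j - 1) - P.Θ j + P.eB j x

noncomputable def kap (x : P.B) : ℕ := P.kapj (P.rho x.2.1) ⟨x, rfl⟩

theorem kap_eq {j : ℕ} (x : P.B) (h : P.rho x.2.1 = j) : P.kap x = P.kapj j ⟨x, h⟩ := by
  subst h
  rfl

theorem Θ_le {j : ℕ} (h1 : 1 ≤ j) (h2 : j ≤ P.R) : P.lam j + P.Θ j ≤ P.lam (j - 1) :=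
  P.hmark j h1 h2

theorem kapj_bd {j : ℕ} (h1 : 1 ≤ j) (h2 : j ≤ P.R) (x : P.Bj j) :
    P.lam j ≤ P.kapj j x ∧ P.kapj j x < P.lam (j - 1) ∧ P.lam (j - 1) ≤ P.kapj j x + P.Θ j := by
  have h3 := P.Θ_le h1 h2
  have h4 := (P.eB j x).2
  unfold kapj
  omega

theorem kap_bd (x : P.B) : P.lam (P.rho x.2.1) ≤ P.kap x ∧ P.kap x < P.lam (P.rho x.2.1 - 1) ∧
    P.lam (P.rho x.2.1 - 1) ≤ P.kap x + P.Θ (P.rho x.2.1) := by
  have h := P.rho_spec x.2.1 x.2.1.2
  exact P.kapj_bd (by omega) h.2 ⟨x, rfl⟩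

theorem kap_inj : Function.Injective P.kap := by
  intro x y h
  have hx := P.kap_bd x
  have hy := P.kap_bd y
  have hρ : P.rho x.2.1 = P.rho y.2.1 := by
    rcases Nat.lt_trichotomy (P.rho x.2.1) (P.rho y.2.1) with h1 | h1 | h1
    · exfalso
      have := P.hlam (show P.rho x.2.1 ≤ P.rho y.2.1 - 1 by omega)
      omega
    · exact h1
    · exfalso
      have := P.hlam (show P.rho y.2.1 ≤ P.rho x.2.1 - 1 by omega)
      omega
  rw [P.kap_eq x hρ, P.kap_eq y rfl] at h
  unfold kapj at h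
  have h2 : P.eB _ ⟨x, hρ⟩ = P.eB _ ⟨y, rfl⟩ := Fin.ext (by omega)
  have h3 := (P.eB _).injective h2
  exact congrArg Subtype.val h3

/-- the chain columns are not marked -/
theorem kap_ge (x : P.B) : P.R * P.W ≤ P.kap x := by
  have h := P.rho_spec x.2.1 x.2.1.2
  have h2 := P.kap_bd x
  have h3 := P.hroom
  rcases Nat.lt_or_ge (P.rho x.2.1) P.R with h4 | h4
  · have h5 := P.hlam (show P.rho x.2.1 ≤ P.R - 1 by omega)
    omega
  · have h5 : P.rho x.2.1 = P.R := by omega
    rw [h5] at h2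
    change P.R * P.W + P.Θ P.R ≤ P.lam (P.R - 1) at h3
    omega

theorem kap_lt_lam (x : P.B) : P.kap x < P.lam x.2.1 := by
  have h := P.rho_spec x.2.1 x.2.1.2
  have h2 := P.kap_bd x
  have h3 := P.hlam (show (x.2.1 : ℕ) ≤ P.rho x.2.1 - 1 by omega)
  omega

/-- the marked columns of row `i` -/
noncomputable def mrk (i : Fin P.R) : Finset ℕ :=
  (univ.filter fun x : P.B => x.2.1 = i).image P.kap

theorem mem_mrk {i : Fin P.R} {c : ℕ} : c ∈ P.mrk i ↔ ∃ x : P.B, x.2.1 = i ∧ P.kap x = c := by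
  simp [mrk]

theorem card_row (q : Fin P.N) (i : Fin P.R) :
    (univ.filter fun x : P.B => x.1 = q ∧ x.2.1 = i).card = P.u q i := by
  classical
  have : (univ.filter fun x : P.B => x.1 = q ∧ x.2.1 = i) =
      (univ : Finset (Fin (P.u q i))).image (fun j => (⟨q, i, j⟩ : P.B)) := by
    ext ⟨q', i', j'⟩
    simp only [mem_filter, mem_univ, true_and, mem_image]
    constructor
    · rintro ⟨h1, h2⟩
      change q' = q at h1
      change i' = i at h2
      subst h1; subst h2
      exact ⟨j', rfl⟩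
    · rintro ⟨j, hj⟩
      cases hj
      exact ⟨rfl, rfl⟩
  rw [this, card_image_of_injective]
  · simp
  · intro j j' h
    simpa using h

theorem card_mrk (i : Fin P.R) : (P.mrk i).card = ∑ q, P.u q i := by
  classical
  rw [mrk, card_image_of_injective _ P.kap_inj]
  rw [card_eq_sum_card_fiberwise (f := fun x : P.B => x.1) (t := univ) (fun x _ => mem_univ _)]
  refine sum_congr rfl fun q _ => ?_
  rw [filter_filter, ← P.card_row q i]
  congr 1
  ext x
  simp only [mem_filter, mem_univ, true_and]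
  tauto

/-- the columns of row `i` served by pure letters -/
noncomputable def A (i : Fin P.R) : Finset ℕ := range (P.lam i) \ P.mrk i

theorem mrk_sub (i : Fin P.R) : P.mrk i ⊆ range (P.lam i) := by
  intro c hc
  obtain ⟨x, hx, rfl⟩ := P.mem_mrk.mp hc
  rw [← hx]
  exact mem_range.mpr (P.kap_lt_lam x)

theorem card_A (i : Fin P.R) : (P.A i).card = P.k * P.w i := by
  rw [A, card_sdiff_of_subset (P.mrk_sub i), card_range, P.card_mrk, P.h1 i i.2]
  omega

/-- the position of row `i` in the chain column `c` -/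
def pos (i : Fin P.R) (c : ℕ) : ℕ := ((c + (P.R - 1 - i)) / P.R) % P.w i

theorem pos_lt (i : Fin P.R) (c : ℕ) : P.pos i c < P.w i := Nat.mod_lt _ (P.hpos i i.2)

/-- the prescribed servers -/
def pre (i : Fin P.R) (c : ℕ) : Option ℕ :=
  if c < P.R * P.W then some (P.pos i c)
  else if (i : ℕ) < P.l ∧ c < P.lam P.l then some (c % P.w i)
  else none

theorem pre_chain (i : Fin P.R) {c : ℕ} (hc : c < P.R * P.W) : P.pre i c = some (P.pos i c) := by
  unfold pre
  rw [if_pos hc]

theorem mrk_ge {i : Fin P.R} {c : ℕ} (h : c ∈ P.mrk i) :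
    P.R * P.W ≤ c ∧ P.lam (P.rho i) ≤ c ∧ P.lam P.R ≤ c := by
  obtain ⟨x, rfl, rfl⟩ := P.mem_mrk.mp h
  have h1 := P.kap_bd x
  have h2 := P.rho_spec x.2.1 x.2.1.2
  have h3 := P.hlam h2.2
  exact ⟨P.kap_ge x, h1.1, by omega⟩

theorem mem_A_chain (i : Fin P.R) {c : ℕ} (hc : c < P.R * P.W) : c ∈ P.A i := by
  simp only [A, mem_sdiff, mem_range]
  constructor
  · have h1 := P.hroom
    have h2 := P.hlam (show (i : ℕ) ≤ P.R - 1 by have := i.2; omega)
    omega
  · intro h
    have := (P.mrk_ge h).1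
    omega

theorem mem_A_long (i : Fin P.R) (hi : (i : ℕ) < P.l) {c : ℕ} (hc : c < P.lam P.l) :
    c ∈ P.A i := by
  simp only [A, mem_sdiff, mem_range]
  constructor
  · have h2 := P.hlam hi.le
    omega
  · intro h
    have := (P.mrk_ge h).2.1
    rw [P.hrl i hi] at this
    omega

/-- the prescribed columns of the letter `g` of row `i` -/
noncomputable def S (i : Fin P.R) (g : Fin (P.w i)) : Finset ℕ :=
  (P.A i).filter fun c => P.pre i c = some (g : ℕ)

theorem card_chain (i : Fin P.R) (g : ℕ) :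
    ((range (P.R * P.W)).filter fun c => P.pos i c = g).card ≤ P.R * (P.W / P.w i + 1) := by
  classical
  have hRpos : 0 < P.R := P.R_pos
  have hi := i.2
  have : ((range (P.R * P.W)).filter fun c => P.pos i c = g).card ≤
      (range P.R ×ˢ range (P.W / P.w i + 1)).card := by
    refine card_le_card_of_injOn
      (fun c => ((c + (P.R - 1 - i)) % P.R, ((c + (P.R - 1 - i)) / P.R) / P.w i)) ?_ ?_
    · intro c hc
      simp only [coe_filter, mem_range, Set.mem_ofPred_eq] at hc
      simp only [coe_product, coe_range, Set.mem_prod, Set.mem_Iio]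
      refine ⟨Nat.mod_lt _ hRpos, ?_⟩
      have h1 : (c + (P.R - 1 - i)) / P.R ≤ P.W := by
        have : (c + (P.R - 1 - i)) / P.R < P.W + 1 := by
          rw [Nat.div_lt_iff_lt_mul hRpos]
          have : (P.W + 1) * P.R = P.R * P.W + P.R := by ring
          omega
        omega
      exact Nat.lt_succ_of_le (Nat.div_le_div_right h1)
    · intro c hc c' hc' h
      simp only [coe_filter, mem_range, Set.mem_ofPred_eq] at hc hc'
      simp only [Prod.mk.injEq] at h
      obtain ⟨h1, h2⟩ := h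
      have e1 : P.pos i c = P.pos i c' := hc.2.trans hc'.2.symm
      unfold pos at e1
      have e2 : (c + (P.R - 1 - i)) / P.R = (c' + (P.R - 1 - i)) / P.R := by
        have a1 := Nat.div_add_mod ((c + (P.R - 1 - i)) / P.R) (P.w i)
        have a2 := Nat.div_add_mod ((c' + (P.R - 1 - i)) / P.R) (P.w i)
        rw [← a1, ← a2, h2, e1]
      have b1 := Nat.div_add_mod (c + (P.R - 1 - i)) P.R
      have b2 := Nat.div_add_mod (c' + (P.R - 1 - i)) P.R
      rw [e2, h1] at b1
      omega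
  simpa using this

theorem card_mod (m w g : ℕ) : ((range m).filter fun c => c % w = g).card ≤ m / w + 1 := by
  classical
  have : ((range m).filter fun c => c % w = g).card ≤ (range (m / w + 1)).card := by
    refine card_le_card_of_injOn (fun c => c / w) ?_ ?_
    · intro c hc
      simp only [coe_filter, mem_range, Set.mem_ofPred_eq] at hc
      simp only [coe_range, Set.mem_Iio]
      exact Nat.lt_succ_of_le (Nat.div_le_div_right hc.1.le)
    · intro c hc c' hc' h
      simp only [coe_filter, mem_range, Set.mem_ofPred_eq] at hc hc'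
      have a1 := Nat.div_add_mod c w
      have a2 := Nat.div_add_mod c' w
      simp only at h
      rw [← a1, ← a2, h, hc.2, hc'.2]
  simpa using this

/-- the long services of a letter of class `< l` are prescribed -/
theorem card_S_long (i : Fin P.R) (hi : (i : ℕ) < P.l) (g : ℕ) :
    ((P.A i).filter fun c => P.pre i c = some g).card ≤
      P.R * (P.W / P.w i + 1) + (P.lam P.l / P.w i + 1) := by
  classical
  have hsub : ((P.A i).filter fun c => P.pre i c = some g) ⊆
      ((range (P.R * P.W)).filter fun c => P.pos i c = g) ∪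
      ((range (P.lam P.l)).filter fun c => c % P.w i = g) := by
    intro c hc
    rw [mem_filter] at hc
    have h := hc.2
    rw [mem_union, mem_filter, mem_filter, mem_range, mem_range]
    unfold pre at h
    split_ifs at h with h1 h2
    · left
      exact ⟨h1, Option.some.inj h⟩
    · right
      exact ⟨h2.2, Option.some.inj h⟩
  exact (card_le_card hsub).trans ((card_union_le _ _).trans
    (Nat.add_le_add (P.card_chain i g) (card_mod _ _ _)))

theorem card_S (i : Fin P.R) (g : Fin (P.w i)) : (P.S i g).card ≤ P.k := by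
  classical
  by_cases hi : (i : ℕ) < P.l
  · have h1 := P.card_S_long i hi g
    have h2 := P.hcap1 i hi
    unfold S
    omega
  · have hsub : P.S i g ⊆ (range (P.R * P.W)).filter fun c => P.pos i c = (g : ℕ) := by
      intro c hc
      simp only [S, mem_filter] at hc
      have h := hc.2
      rw [mem_filter, mem_range]
      unfold pre at h
      split_ifs at h with h1 h2
      · exact ⟨h1, Option.some.inj h⟩
      · exact absurd h2.1 hi
    exact (card_le_card hsub).trans ((P.card_chain i g).trans (P.hcap2 i i.2))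

theorem exists_pi (i : Fin P.R) : ∃ π : ℕ → Fin (P.w i),
    (∀ g, ((P.A i).filter fun c => π c = g).card = P.k) ∧ ∀ g, ∀ c ∈ P.S i g, π c = g := by
  classical
  have : Nonempty (Fin (P.w i)) := ⟨⟨0, P.hpos i i.2⟩⟩
  refine H162.exists_assign (P.A i) (fun _ => P.k) ?_ (P.S i) (fun g => filter_subset _ _) ?_
    (P.card_S i)
  · rw [P.card_A]
    simp [mul_comm]
  · intro g g' hgg
    rw [disjoint_left]
    intro c hc hc'
    simp only [S, mem_filter] at hc hc'
    have := hc.2.symm.trans hc'.2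
    exact hgg (Fin.ext (Option.some.inj this))

/-- the pure server of row `i` in column `c` -/
noncomputable def pi (i : Fin P.R) : ℕ → Fin (P.w i) := (P.exists_pi i).choose

theorem card_pi (i : Fin P.R) (g : Fin (P.w i)) :
    ((P.A i).filter fun c => P.pi i c = g).card = P.k := (P.exists_pi i).choose_spec.1 g

theorem pi_pre (i : Fin P.R) {c : ℕ} (hc : c ∈ P.A i) {g : ℕ} (hg : g < P.w i)
    (h : P.pre i c = some g) : P.pi i c = ⟨g, hg⟩ := by
  refine (P.exists_pi i).choose_spec.2 ⟨g, hg⟩ c ?_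
  simp only [S, mem_filter]
  exact ⟨hc, h⟩

/-- the pure letters -/
abbrev T : Type := Σ i : Fin P.R, Fin (P.w i)

open Classical in
/-- the servers -/
noncomputable def srv (c i : ℕ) : P.T ⊕ Fin P.N :=
  if h : i < P.R then
    if hb : ∃ x : P.B, (x.2.1 : ℕ) = i ∧ P.kap x = c then Sum.inr hb.choose.1
    else Sum.inl ⟨⟨i, h⟩, P.pi ⟨i, h⟩ c⟩
  else Sum.inl ⟨⟨0, P.R_pos⟩, P.pi ⟨0, P.R_pos⟩ c⟩

theorem srv_kap (x : P.B) : P.srv (P.kap x) x.2.1 = Sum.inr x.1 := by
  have h : (x.2.1 : ℕ) < P.R := x.2.1.2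
  have hb : ∃ y : P.B, (y.2.1 : ℕ) = x.2.1 ∧ P.kap y = P.kap x := ⟨x, rfl, rfl⟩
  unfold srv
  rw [dif_pos h, dif_pos hb]
  congr 1
  rw [P.kap_inj hb.choose_spec.2]

theorem srv_pure (i : Fin P.R) {c : ℕ} (hc : c ∉ P.mrk i) :
    P.srv c i = Sum.inl ⟨i, P.pi i c⟩ := by
  have hb : ¬ ∃ x : P.B, (x.2.1 : ℕ) = i ∧ P.kap x = c := by
    rintro ⟨x, hx, hxc⟩
    exact hc (P.mem_mrk.mpr ⟨x, Fin.ext hx, hxc⟩)
  unfold srv
  rw [dif_pos i.2, dif_neg hb]

theorem srv_of_mrk (i : Fin P.R) {c : ℕ} (hc : c ∈ P.mrk i) : ∃ q, P.srv c i = Sum.inr q := by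
  obtain ⟨x, rfl, rfl⟩ := P.mem_mrk.mp hc
  exact ⟨x.1, P.srv_kap x⟩

theorem mrk_unique {i i' : Fin P.R} {c : ℕ} (h : c ∈ P.mrk i) (h' : c ∈ P.mrk i') : i = i' := by
  obtain ⟨x, rfl, rfl⟩ := P.mem_mrk.mp h
  obtain ⟨y, rfl, hy⟩ := P.mem_mrk.mp h'
  rw [P.kap_inj hy]

/-- **serve** -/
theorem serve (i : ℕ) (hi : i < P.R) (c : ℕ) (hc : c < P.lam i) :
    (∃ t : P.T, P.srv c i = Sum.inl t ∧ (t.1 : ℕ) = i) ∨
    (P.lam P.R ≤ c ∧ (∃ q, P.srv c i = Sum.inr q) ∧
      ∀ i' < P.R, i' ≠ i → ∃ t : P.T, P.srv c i' = Sum.inl t ∧ (t.1 : ℕ) = i') := by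
  by_cases h : c ∈ P.mrk ⟨i, hi⟩
  · right
    refine ⟨(P.mrk_ge h).2.2, P.srv_of_mrk ⟨i, hi⟩ h, ?_⟩
    intro i' hi' hne
    have h' : c ∉ P.mrk ⟨i', hi'⟩ := by
      intro h'
      have := P.mrk_unique h h'
      simp only [Fin.mk.injEq] at this
      exact hne this.symm
    exact ⟨_, P.srv_pure ⟨i', hi'⟩ h', rfl⟩
  · left
    exact ⟨_, P.srv_pure ⟨i, hi⟩ h, rfl⟩

/-- **typ** -/
theorem typ (q : Fin P.N) (i : ℕ) (hi : i < P.R) :
    ((range (P.lam i)).filter fun c => P.srv c i = Sum.inr q).card = P.u q i := by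
  classical
  have : ((range (P.lam i)).filter fun c => P.srv c i = Sum.inr q) =
      (univ.filter fun x : P.B => x.1 = q ∧ x.2.1 = ⟨i, hi⟩).image P.kap := by
    ext c
    simp only [mem_filter, mem_range, mem_image, mem_univ, true_and]
    constructor
    · rintro ⟨hc, hs⟩
      by_cases h : c ∈ P.mrk ⟨i, hi⟩
      · obtain ⟨x, hx, rfl⟩ := P.mem_mrk.mp h
        have h2 := P.srv_kap x
        rw [hx] at h2
        have h3 : (Sum.inr x.1 : P.T ⊕ Fin P.N) = Sum.inr q := h2.symm.trans hs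
        exact ⟨x, ⟨Sum.inr.inj h3, hx⟩, rfl⟩
      · have h2 := P.srv_pure ⟨i, hi⟩ h
        rw [show P.srv c i = P.srv c ((⟨i, hi⟩ : Fin P.R) : ℕ) from rfl, h2] at hs
        exact absurd hs (by simp)
    · rintro ⟨x, ⟨hx1, hx2⟩, rfl⟩
      constructor
      · have := P.kap_lt_lam x
        rw [hx2] at this
        exact this
      · have h2 := P.srv_kap x
        rw [hx2, hx1] at h2
        exact h2
  rw [this, card_image_of_injective _ P.kap_inj]
  exact P.card_row q ⟨i, hi⟩

/-- **inc** -/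
theorem inc (t : P.T) :
    ((range (P.lam t.1)).filter fun c => P.srv c t.1 = Sum.inl t).card = P.k := by
  classical
  obtain ⟨i, g⟩ := t
  rw [← P.card_pi i g]
  congr 1
  ext c
  simp only [mem_filter, A, mem_sdiff, mem_range]
  constructor
  · rintro ⟨hc, hs⟩
    have h : c ∉ P.mrk i := by
      intro h
      obtain ⟨q, hq⟩ := P.srv_of_mrk i h
      rw [hq] at hs
      exact absurd hs (by simp)
    rw [P.srv_pure i h] at hs
    have h3 := Sum.inl.inj hs
    simp only [Sigma.mk.injEq, heq_eq_eq, true_and] at h3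
    exact ⟨⟨hc, h⟩, h3⟩
  · rintro ⟨⟨hc, h⟩, hg⟩
    refine ⟨hc, ?_⟩
    rw [P.srv_pure i h, hg]

theorem srv_chain (i : Fin P.R) {c : ℕ} (hc : c < P.R * P.W) :
    P.srv c i = Sum.inl ⟨i, ⟨P.pos i c, P.pos_lt i c⟩⟩ := by
  have hA := P.mem_A_chain i hc
  have h : c ∉ P.mrk i := (mem_sdiff.mp hA).2
  rw [P.srv_pure i h, P.pi_pre i hA (P.pos_lt i c) (P.pre_chain i hc)]

theorem card_cls (i : Fin P.R) : (univ.filter fun t : P.T => t.1 = i).card = P.w i := by
  classical
  have : (univ.filter fun t : P.T => t.1 = i) =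
      (univ : Finset (Fin (P.w i))).image (fun g => (⟨i, g⟩ : P.T)) := by
    ext ⟨i', g'⟩
    simp only [mem_filter, mem_univ, true_and, mem_image]
    constructor
    · intro h
      change i' = i at h
      subst h
      exact ⟨g', rfl⟩
    · rintro ⟨g, hg⟩
      cases hg
      rfl
  rw [this, card_image_of_injective]
  · simp
  · intro g g' h
    simpa using h

/-- consecutive chain columns differ in one row -/
theorem pos_step (c : ℕ) : ∀ i' : Fin P.R, (i' : ℕ) ≠ c % P.R → P.pos i' (c + 1) = P.pos i' c := by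
  intro i' hne'
  have hRpos := P.R_pos
  have hi' := i'.2
  unfold pos
  congr 1
  have hm := Nat.div_add_mod c P.R
  have hml := Nat.mod_lt c hRpos
  set r := c % P.R with hr
  set d := c / P.R with hd
  by_cases hlt : r < i'
  · have e1 : c + 1 + (P.R - 1 - i') = (r + 1 + (P.R - 1 - i')) + P.R * d := by omega
    have e2 : c + (P.R - 1 - i') = (r + (P.R - 1 - i')) + P.R * d := by omega
    rw [e1, e2, Nat.add_mul_div_left _ _ hRpos, Nat.add_mul_div_left _ _ hRpos,
      Nat.div_eq_of_lt (by omega), Nat.div_eq_of_lt (by omega)]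
  · have hgt : (i' : ℕ) < r := by omega
    have e1 : c + 1 + (P.R - 1 - i') = (r - i') + P.R * (d + 1) := by
      rw [Nat.mul_add, Nat.mul_one]
      omega
    have e2 : c + (P.R - 1 - i') = (r - i' - 1) + P.R * (d + 1) := by
      rw [Nat.mul_add, Nat.mul_one]
      omega
    rw [e1, e2, Nat.add_mul_div_left _ _ hRpos, Nat.add_mul_div_left _ _ hRpos,
      Nat.div_eq_of_lt (by omega), Nat.div_eq_of_lt (by omega)]

/-- every pure letter occurs in the chain -/
theorem chain_cover (t : P.T) : P.R * t.2 + t.1 < P.R * P.W ∧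
    P.pos t.1 (P.R * t.2 + t.1) = t.2 := by
  obtain ⟨i, g⟩ := t
  have hRpos := P.R_pos
  have hi := i.2
  have hg := g.2
  simp only
  constructor
  · have h1 : (g : ℕ) + 1 ≤ P.W := by
      have := P.hW i i.2
      omega
    calc P.R * g + i < P.R * g + P.R := by omega
      _ = P.R * (g + 1) := by ring
      _ ≤ P.R * P.W := Nat.mul_le_mul_left _ h1
  · unfold pos
    have e1 : P.R * g + i + (P.R - 1 - i) = (P.R - 1) + P.R * g := by omega
    rw [e1, Nat.add_mul_div_left _ _ hRpos, Nat.div_eq_of_lt (by omega), zero_add,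
      Nat.mod_eq_of_lt hg]

end DatB

end Vale.Agent.P181.H412
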