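import Vale.Agent.P181.T7.Spec

set_option autoImplicit false

/-!
# P181: the final form of T7 (all numbers of rows, no finiteness conventions)
-/

namespace Vale.Agent.P181.T7

open Vale.Agent.P181.T4 Vale.Agent.P181.H280

/-- the number of cells in the rows with (0-based) index at least `2` -/
def cells2 {n : ℕ} (lam : Fin n → ℕ) : ℕ :=
  ∑ i ∈ Finset.univ.filter (fun i : Fin n => 2 ≤ (i : ℕ)), lam i

lemma below_two {a : ℕ} (lam : Fin a → ℕ) : below 2 lam = cells2 lam := by
  unfold below cells2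
  rw [Finset.sum_filter]
  have h1 : ∑ i : Fin a, (if 2 ≤ (i : ℕ) then lam i else 0) =
      ∑ i ∈ Finset.range a, (if 2 ≤ i then ex lam i else 0) := by
    rw [Finset.sum_range]
    apply Finset.sum_congr rfl
    intro i _
    rw [ex_of_lt lam i.2]
  rw [h1, ← Finset.sum_filter]
  apply Finset.sum_congr _ (fun _ _ => rfl)
  ext i
  simp only [Finset.mem_Ico, Finset.mem_filter, Finset.mem_range]
  tauto

lemma cells2_pad {n k : ℕ} (lam : Fin n → ℕ) :
    cells2 (fun i : Fin (n + k) => if h : (i : ℕ) < n then lam ⟨i, h⟩ else 0) = cells2 lam := by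
  unfold cells2
  rw [Finset.sum_filter, Finset.sum_filter, Fin.sum_univ_add]
  have h1 : ∑ i : Fin n, (if 2 ≤ ((Fin.castAdd k i : Fin (n + k)) : ℕ) then
      (if h : ((Fin.castAdd k i : Fin (n + k)) : ℕ) < n then
        lam ⟨(Fin.castAdd k i : Fin (n + k)), h⟩ else 0) else 0) =
      ∑ i : Fin n, if 2 ≤ (i : ℕ) then lam i else 0 := by
    apply Finset.sum_congr rfl
    intro i _
    rw [dif_pos (by simp)]
    rfl
  have h2 : ∑ i : Fin k, (if 2 ≤ ((Fin.natAdd n i : Fin (n + k)) : ℕ) then
      (if h : ((Fin.natAdd n i : Fin (n + k)) : ℕ) < n then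
        lam ⟨(Fin.natAdd n i : Fin (n + k)), h⟩ else 0) else 0) = 0 := by
    apply Finset.sum_eq_zero
    intro i _
    rw [dif_neg (by simp)]
    simp
  rw [h1, h2, add_zero]

/-- All numbers of rows from the case of `a` rows, with a condition on the cells below row two. -/
theorem all_n_cond (hP : PadStmt) (hZ : ZeroStmt) {a b : ℕ} (Q : ℕ → Prop)
    (h : ∀ lam : Fin a → ℕ, Antitone lam → ∑ i, lam i = a * b → Q (cells2 lam) →
      plethMult a b a lam ≤ plethMult b a a lam) (n : ℕ) (lam : Fin n → ℕ)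
    (hQ : Q (cells2 lam)) :
    plethMult a b n lam ≤ plethMult b a n lam := by
  by_cases h0 : plethMult a b n lam = 0
  · rw [h0]
    exact Nat.zero_le _
  · obtain ⟨hanti, hsum, hz⟩ := hZ a b n lam h0
    rcases Nat.le_total n a with hna | hna
    · obtain ⟨k, rfl⟩ := Nat.exists_eq_add_of_le hna
      rw [← hP (n + k) b n k lam, ← hP b (n + k) n k lam]
      apply h
      · intro i j hij
        have hij' : (i : ℕ) ≤ j := hij
        dsimp only
        split_ifs with h1 h2 h2
        · exact hanti (show (⟨i, h2⟩ : Fin n) ≤ ⟨j, h1⟩ from hij')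
        · omega
        · exact Nat.zero_le _
        · exact le_rfl
      · rw [Fin.sum_univ_add]
        have h1 : ∑ i : Fin n, (if h : ((Fin.castAdd k i : Fin (n + k)) : ℕ) < n then
            lam ⟨(Fin.castAdd k i : Fin (n + k)), h⟩ else 0) = ∑ i, lam i := by
          apply Finset.sum_congr rfl
          intro i _
          rw [dif_pos (by simp)]
          congr 1
        have h2 : ∑ i : Fin k, (if h : ((Fin.natAdd n i : Fin (n + k)) : ℕ) < n then
            lam ⟨(Fin.natAdd n i : Fin (n + k)), h⟩ else 0) = 0 := by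
          apply Finset.sum_eq_zero
          intro i _
          rw [dif_neg (by simp)]
        rw [h1, h2, add_zero, hsum]
      · rw [cells2_pad]
        exact hQ
    · obtain ⟨k, rfl⟩ := Nat.exists_eq_add_of_le hna
      set mu : Fin a → ℕ := fun i => lam (Fin.castAdd k i) with hmu
      have hlam : lam = fun i : Fin (a + k) => if h : (i : ℕ) < a then mu ⟨i, h⟩ else 0 := by
        funext i
        by_cases hi : (i : ℕ) < a
        · rw [dif_pos hi, hmu]
          congr 1
        · rw [dif_neg hi]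
          exact hz i (by omega)
      have hQ' : Q (cells2 mu) := by
        rw [← cells2_pad (k := k) mu, ← hlam]
        exact hQ
      rw [hlam, hP a b a k mu, hP b a a k mu]
      apply h
      · intro i j hij
        have hij' : (i : ℕ) ≤ j := hij
        exact hanti (show Fin.castAdd k i ≤ Fin.castAdd k j from hij')
      · rw [← hsum, Fin.sum_univ_add]
        have h2 : ∑ i : Fin k, lam (Fin.natAdd a i) = 0 := by
          apply Finset.sum_eq_zero
          intro i _
          exact hz _ (by simp)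
        rw [h2, add_zero]
      · exact hQ'

/-- **Final form.** -/
theorem result7 (hF : FStmt) (hP : PadStmt) (hZ : ZeroStmt) (ε : ℝ) (hε : 0 < ε) :
    ∃ a₀ : ℕ, ∀ a ≥ a₀, ∀ (b n : ℕ) (lam : Fin n → ℕ),
      ((a : ℝ) ^ (3 / 2 + ε) ≤ b ∨
        ((a : ℝ) ^ (1 + ε) ≤ b ∧ (a : ℝ) ^ (3 / 2 + ε) ≤ (cells2 lam : ℕ))) →
      plethMult a b n lam ≤ plethMult b a n lam := by
  obtain ⟨a₀, h⟩ := Filter.eventually_atTop.1 ((final hF ε hε).and (hF ε hε))
  refine ⟨a₀, fun a ha b n lam hyp => ?_⟩
  obtain ⟨h1, h2⟩ := h a ha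
  rcases hyp with hb | ⟨hb, hD⟩
  · exact all_n hP hZ (h1 b hb) n lam
  · refine all_n_cond hP hZ (fun D => (a : ℝ) ^ (3 / 2 + ε) ≤ (D : ℝ)) ?_ n lam hD
    intro mu hmu hsum hQ
    apply h2 b hb mu hmu hsum
    rw [below_two]
    exact hQ

end Vale.Agent.P181.T7
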