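import Vale.Agent.P181.T9.Sub

set_option autoImplicit false

/-!
# P181, T9 = (C): the numbers of `LB10`
-/

namespace Vale.Agent.P181.H412

open Finset Vale.Agent.P181.T9

section

variable {μ : ℕ → ℕ} {k B N D R l : ℕ} {rho h : ℕ → ℕ}

lemma mk_ge (i : ℕ) (hi : l ≤ i) (hiR : i < R) :
    N * (4 * h i + 1) ≤ mk R l N rho h (rho i) := by
  unfold T9.mk
  exact Finset.single_le_sum (f := fun i => N * (4 * h i + 1)) (fun _ _ => Nat.zero_le _)
    (mem_filter.2 ⟨mem_Ico.2 ⟨hi, hiR⟩, rfl⟩)

theorem lb10_numbers (hTot : TotB) (hμ : Antitone μ) (hL : Lev R l rho h)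
    (hk : 64 * R * (R + 5) ≤ k) (hkN : k * (R + 1) ≤ N) (hsum : ∑ i ∈ range R, μ i + D = k * B)
    (hgl : μ l + 20 * N * k ≤ μ (l - 1)) (h0 : μ 0 ≤ 2 * (μ (l - 1) - μ l))
    (hgj : ∀ j, l < j → j ≤ R → μ j + mk R l N rho h j ≤ μ (j - 1))
    (hch : 2 * R * μ 0 + k * mk R l N rho h R ≤ k * μ (R - 1))
    (hup : μ l ≤ N * (4 * ∑ i ∈ Ico l R, h i + 50 * R) + D)
    (hH : 4 * R + 2 ≤ ∑ i ∈ Ico l R, h i)
    (hHk : 16 * R * ∑ i ∈ Ico l R, (4 * h i + 1) ≤ k) (hD : 4 * D ≤ N * k) :
    ∃ w t : ℕ → ℕ, (∀ i < R, μ i = k * w i + t i) ∧ ∑ i ∈ range R, t i = N * k - D ∧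
      ∑ i ∈ range R, w i + N = B ∧ (∀ i, i + 1 < R → w (i + 1) < w i) ∧ (∀ i < R, 0 < w i) ∧
      (∀ i < R, w i ≤ w 0) ∧
      (∀ i < l, R * (w 0 / w i + 1) + (μ l / w i + 1) + 1 ≤ D / N + 2 * ∑ i ∈ Ico l R, h i) ∧
      (∀ i < R, R * (w 0 / w i + 1) ≤ k) ∧
      (∀ j, 1 ≤ j → j ≤ R → μ j + ∑ i ∈ (range R).filter (fun i => rho i = j), t i ≤ μ (j - 1)) ∧
      (R * w 0 + ∑ i ∈ (range R).filter (fun i => rho i = R), t i ≤ μ (R - 1)) ∧
      (∀ i, l ≤ i → i < R → 4 * h i ≤ t i / N) ∧
      (∀ i, 1 ≤ i → i < l → 2 * (k / (32 * R ^ 2)) ≤ t i / N) ∧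
      N * (R + 1 + 2 * ((l - 1) * (k / (32 * R ^ 2)) + ∑ i ∈ Ico l R, h i)) ≤ t 0 := by
  obtain ⟨hl2, hlR, hr1, hr2, hr3, hr4⟩ := hL
  set H := ∑ i ∈ Ico l R, h i with hHdef
  have hE1 : ∑ i ∈ Ico l R, (4 * h i + 1) = 4 * H + (R - l) := by
    rw [Finset.sum_add_distrib, ← Finset.mul_sum, Finset.sum_const, Nat.card_Ico, smul_eq_mul,
      mul_one]
  rw [hE1] at hHk
  have hR3 : 3 ≤ R := by omega
  have hk1 : 64 * (R * R) + 320 * R ≤ k := by
    have : 64 * R * (R + 5) = 64 * (R * R) + 320 * R := by ring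
    omega
  have hkpos : 0 < k := by omega
  have hkN1 : k ≤ N := by
    have : k * (R + 1) = k * R + k := by ring
    omega
  have hN : 0 < N := by omega
  set x := N * k with hx
  -- products
  have q1 : 64 * (N * (R * R)) + 320 * (N * R) ≤ x := by
    calc 64 * (N * (R * R)) + 320 * (N * R) = N * (64 * (R * R) + 320 * R) := by ring
      _ ≤ x := Nat.mul_le_mul_left _ hk1
  have q2 : 64 * (N * (R * H)) ≤ x := by
    calc 64 * (N * (R * H)) = N * (16 * R * (4 * H)) := by ring
      _ ≤ N * (16 * R * (4 * H + (R - l))) := by gcongr; omega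
      _ ≤ x := Nat.mul_le_mul_left _ hHk
  have q3 : N * H ≤ N * (R * H) := by
    refine Nat.mul_le_mul_left _ ?_
    exact Nat.le_mul_of_pos_left _ (by omega)
  have q4 : R ≤ N * R := Nat.le_mul_of_pos_left _ hN
  have q5 : N ≤ N * R := Nat.le_mul_of_pos_right _ (by omega)
  set h1 := k / (32 * R ^ 2) with hh1
  have q6 : 32 * (N * (R * R * h1)) ≤ x := by
    have e1 : 32 * R ^ 2 * h1 ≤ k := Nat.mul_div_le _ _
    calc 32 * (N * (R * R * h1)) = N * (32 * R ^ 2 * h1) := by ring
      _ ≤ x := Nat.mul_le_mul_left _ e1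
  set Θ := x - D with hΘ
  have hΘ1 : 3 * x ≤ 4 * Θ := by omega
  have hΘ2 : Θ ≤ x := Nat.sub_le _ _
  set S4 := 4 * (N * H) with hS4
  set τ := (Θ - S4) / l with hτ
  have hτ1 : l * τ ≤ Θ - S4 := Nat.mul_div_le _ _
  have hτ2 : Θ - S4 < l * τ + l := by
    have := Nat.lt_mul_div_succ (Θ - S4) (show 0 < l by omega)
    rw [Nat.mul_add, Nat.mul_one] at this
    exact this
  have hS4Θ : S4 ≤ Θ := by omega
  have hlτ : 2 * τ ≤ l * τ := Nat.mul_le_mul_right _ hl2
  have hRτ : l * τ ≤ R * τ := Nat.mul_le_mul_right _ hlR.le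
  have hτx : 2 * τ ≤ x := by omega
  -- `R N ≤ τ`
  have hRNτ : 8 * (N * R) ≤ τ := by
    refine Nat.le_of_mul_le_mul_left (c := R) ?_ (by omega)
    have e1 : R * (8 * (N * R)) = 8 * (N * (R * R)) := by ring
    rw [e1]
    omega
  have hkR : k * (R + 1) ≤ N := hkN
  have hx2 : 2 * N ≤ x := by
    have : N * 2 ≤ N * k := Nat.mul_le_mul_left _ (by omega)
    omega
  -- the targets
  set T : ℕ → ℕ := fun i => if i < l then τ else 4 * (N * h i) with hT
  have hTl : ∀ i, i < l → T i = τ := fun i hi => by simp [hT, hi]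
  have hTg : ∀ i, l ≤ i → T i = 4 * (N * h i) := fun i hi => by
    simp [hT, Nat.not_lt.2 hi]
  have hgl' : μ l + 20 * x ≤ μ (l - 1) := by
    have : 20 * N * k = 20 * x := by rw [hx]; ring
    omega
  have hNB : N ≤ B := by
    have e1 : μ 0 ≤ ∑ i ∈ range R, μ i :=
      Finset.single_le_sum (f := μ) (fun i _ => Nat.zero_le _) (Finset.mem_range.2 (by omega))
    have e3 : μ (l - 1) ≤ μ 0 := hμ (Nat.zero_le _)
    have e2 : k * N ≤ k * B := by
      have : k * N = x := Nat.mul_comm _ _
      omega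
    exact Nat.le_of_mul_le_mul_left e2 hkpos
  have hsum' : ∑ i ∈ range R, μ i = k * (B - N) + Θ := by
    rw [Nat.mul_sub]
    have e1 : k * N ≤ k * B := Nat.mul_le_mul_left _ hNB
    have e2 : k * N = x := Nat.mul_comm _ _
    omega
  have hmkg : ∀ i, l ≤ i → i < R → T i + k * (R + 1) ≤ mk R l N rho h (rho i) := by
    intro i hi hiR
    have e1 := mk_ge (N := N) (rho := rho) (h := h) i hi hiR
    have e2 : N * (4 * h i + 1) = 4 * (N * h i) + N := by ring
    rw [hTg i hi]
    omega
  have hsplit : ∀ f : ℕ → ℕ, ∑ i ∈ Ico 1 R, f i = ∑ i ∈ Ico 1 l, f i + ∑ i ∈ Ico l R, f i :=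
    fun f => (Finset.sum_Ico_consecutive f (by omega) (by omega)).symm
  have hsumT : ∑ i ∈ Ico 1 R, T i = (l - 1) * τ + S4 := by
    rw [hsplit]
    congr 1
    · rw [Finset.sum_congr rfl (fun i hi => hTl i (mem_Ico.1 hi).2), Finset.sum_const,
        Nat.card_Ico, smul_eq_mul]
    · rw [Finset.sum_congr rfl (fun i hi => hTg i (mem_Ico.1 hi).1), ← Finset.mul_sum,
        ← Finset.mul_sum]
  have hl1τ : (l - 1) * τ + τ = l * τ := by
    obtain ⟨e, rfl⟩ : ∃ e, l = e + 1 := ⟨l - 1, by omega⟩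
    rw [Nat.add_sub_cancel]; ring
  have hsumk : ∑ i ∈ Ico 1 R, (T i + k * (R + 1)) ≤ (l - 1) * τ + S4 + N * R := by
    rw [Finset.sum_add_distrib, hsumT, Finset.sum_const, Nat.card_Ico, smul_eq_mul]
    have : (R - 1) * (k * (R + 1)) ≤ R * N := Nat.mul_le_mul (Nat.sub_le _ _) hkN
    have e2 : R * N = N * R := Nat.mul_comm _ _
    omega
  have hrhoμ : ∀ i, l ≤ i → i < R → μ (rho i) + (T i + k * (R + 1)) ≤ μ (rho i - 1) := by
    intro i hi hiR
    have e1 := hr2 i hi hiR
    have e2 := hgj (rho i) (by omega) e1.2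
    have e3 := hmkg i hi hiR
    omega
  have hrhoμ' : ∀ i, l ≤ i → i < R → μ (rho i - 1) ≤ μ i := fun i hi hiR =>
    hμ (by have := hr2 i hi hiR; omega)
  obtain ⟨w, t, hw1, ht1, hw2, hw3, ht2, ht3, ht4⟩ := hTot μ T k R (B - N) Θ hμ hkpos (by omega)
    hsum' (by
      intro i hi1 hiR
      rcases Nat.lt_trichotomy (i + 1) l with e | e | e
      · left
        rw [hTl i (by omega), hTl (i + 1) e]
      · right
        have e1 : i = l - 1 := by omega
        rw [hTl i (by omega), e, e1]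
        omega
      · rcases hr3 i hiR with e1 | e1
        · right
          have e2 := hrhoμ i (by omega) (by omega)
          rw [e1, Nat.add_sub_cancel] at e2
          omega
        · left
          rw [hTg i (by omega), hTg (i + 1) (by omega),
            hr4 i (i + 1) (by omega) (by omega) (by omega) hiR e1])
    (by
      intro i hi1 hiR
      by_cases e : i < l
      · rw [hTl i e]
        have : μ (l - 1) ≤ μ i := hμ (by omega)
        omega
      · have e2 := hrhoμ i (by omega) hiR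
        have e3 := hrhoμ' i (by omega) hiR
        omega)
    (by
      rw [hsumT, hTl 1 (by omega)]
      omega)
    (by omega)
  rw [hTl 1 (by omega)] at ht3
  -- bounds of the totals
  have ht0 : t 0 + N * R ≥ τ := by omega
  have htl : ∀ i < l, t i ≤ τ + N := by
    intro i hi
    rcases Nat.eq_zero_or_pos i with e | e
    · subst e; omega
    · have e1 := (ht2 i e (by omega)).2
      rw [hTl i hi] at e1
      omega
  have htx : ∀ i < l, t i ≤ x := fun i hi => by have := htl i hi; omega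
  have htg : ∀ i, l ≤ i → i < R → t i ≤ N * (4 * h i + 1) := by
    intro i hi hiR
    have e1 := (ht2 i (by omega) hiR).2
    rw [hTg i hi] at e1
    have e2 : N * (4 * h i + 1) = 4 * (N * h i) + N := by ring
    omega
  -- the gap
  set G := μ (l - 1) - μ l with hG
  have hG20 : 20 * x ≤ G := by omega
  have hxpos : 0 < x := Nat.mul_pos hN hkpos
  have hkw : ∀ i < l, G + μ l ≤ k * w i + x := by
    intro i hi
    have e1 := hw1 i (by omega)
    have e2 : μ (l - 1) ≤ μ i := hμ (by omega)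
    have e3 := htx i hi
    omega
  have hkw0 : k * w 0 ≤ 2 * G := by
    have := hw1 0 (by omega)
    omega
  have hw19 : ∀ i < l, 19 * N ≤ w i := by
    intro i hi
    refine Nat.le_of_mul_le_mul_left (c := k) ?_ hkpos
    have e1 := hkw i hi
    have e2 : k * (19 * N) = 19 * x := by rw [hx]; ring
    omega
  have hanti : ∀ i j, i < j → j < R → w j < w i := by
    intro i j hij
    induction j, hij using Nat.le_induction with
    | base => intro hj; exact hw3 i hj
    | succ j _ ih =>
      intro hj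
      exact lt_trans (hw3 j hj) (ih (by omega))
  have hW : ∀ i < R, w i ≤ w 0 := by
    intro i hi
    rcases Nat.eq_zero_or_pos i with e | e
    · rw [e]
    · exact (hanti 0 i e hi).le
  have hw0pos : 0 < w 0 := by
    have := hw19 0 (by omega)
    omega
  -- the chain
  set MR := mk R l N rho h R with hMR
  have hchain : MR + 2 * (R * w 0) ≤ μ (R - 1) := by
    refine Nat.le_of_mul_le_mul_left (c := k) ?_ hkpos
    have e1 : k * w 0 ≤ μ 0 := by
      have := hw1 0 (by omega)
      omega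
    have e2 : R * (k * w 0) ≤ R * μ 0 := Nat.mul_le_mul_left _ e1
    have e3 : k * (MR + 2 * (R * w 0)) = k * MR + 2 * (R * (k * w 0)) := by ring
    have e4 : 2 * R * μ 0 = 2 * (R * μ 0) := by ring
    omega
  have hkwg : ∀ i, l ≤ i → i < R → 2 * (R * w 0) ≤ k * w i := by
    intro i hi hiR
    have e1 := hw1 i hiR
    have e2 := htg i hi hiR
    have e3 := mk_ge (N := N) (rho := rho) (h := h) i hi hiR
    have e4 := hr2 i hi hiR
    have e5 := hrhoμ' i hi hiR
    rcases Nat.lt_or_ge (rho i) R with e6 | e6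
    · have e7 := hgj (rho i) (by omega) e4.2
      have e8 : μ (R - 1) ≤ μ (rho i) := hμ (by omega)
      omega
    · have e7 : rho i = R := by omega
      rw [e7] at e3 e5
      omega
  have hwpos : ∀ i < R, 0 < w i := by
    intro i hi
    by_cases e : i < l
    · have := hw19 i e
      omega
    · have e1 := hkwg i (by omega) hi
      have e2 : 0 < R * w 0 := Nat.mul_pos (by omega) hw0pos
      by_contra e3
      have e4 : w i = 0 := by omega
      rw [e4, Nat.mul_zero] at e1
      omega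
  -- quotients
  have hq2 : ∀ i < l, w 0 / w i ≤ 2 := by
    intro i hi
    have e1 := hkw i hi
    have e2 : w 0 < 3 * w i := by
      refine Nat.lt_of_mul_lt_mul_left (a := k) ?_
      have : k * (3 * w i) = 3 * (k * w i) := by ring
      omega
    have e3 : w 0 / w i < 3 := (Nat.div_lt_iff_lt_mul (hwpos i (by omega))).2 e2
    omega
  have hTh : ∀ j, l < j → ∑ i ∈ (range R).filter (fun i => rho i = j), t i ≤
      mk R l N rho h j := by
    intro j hj
    unfold T9.mk
    have e1 : (range R).filter (fun i => rho i = j) = (Ico l R).filter (fun i => rho i = j) := by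
      ext i
      simp only [mem_filter, mem_range, mem_Ico]
      constructor
      · rintro ⟨e2, e3⟩
        refine ⟨⟨?_, e2⟩, e3⟩
        by_contra e4
        rw [hr1 i (by omega)] at e3
        omega
      · rintro ⟨⟨_, e2⟩, e3⟩
        exact ⟨e2, e3⟩
    rw [e1]
    refine Finset.sum_le_sum fun i hi => ?_
    rw [mem_filter, mem_Ico] at hi
    exact htg i hi.1.1 hi.1.2
  refine ⟨w, t, hw1, ht1, by omega, hw3, hwpos, hW, ?_, ?_, ?_, ?_, ?_, ?_, ?_⟩
  · intro i hi
    have e1 := hq2 i hi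
    have e2 : R * (w 0 / w i + 1) ≤ R * 3 := Nat.mul_le_mul_left _ (by omega)
    set y := μ l / w i with hy
    have e3 : 19 * N * y ≤ w i * y := Nat.mul_le_mul_right _ (hw19 i hi)
    have e4 : w i * y ≤ μ l := Nat.mul_div_le _ _
    have e5 : D < N * (D / N) + N := by
      have := Nat.lt_mul_div_succ D hN
      rw [Nat.mul_add, Nat.mul_one] at this
      exact this
    have e6 : N * (19 * y) < N * (4 * H + 50 * R + (D / N + 1)) := by
      calc N * (19 * y) = 19 * N * y := by ring
        _ ≤ N * (4 * H + 50 * R) + D := by omega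
        _ < N * (4 * H + 50 * R) + (N * (D / N) + N) := by omega
        _ = N * (4 * H + 50 * R + (D / N + 1)) := by ring
    have e7 := Nat.lt_of_mul_lt_mul_left e6
    obtain ⟨d, hd⟩ : ∃ d, d = D / N := ⟨_, rfl⟩
    rw [← hd] at e7 ⊢
    obtain ⟨z, hz⟩ : ∃ z, z = R * (w 0 / w i + 1) := ⟨_, rfl⟩
    rw [← hz] at e2 ⊢
    omega
  · intro i hi
    by_cases e : i < l
    · have e1 := hq2 i e
      have e2 : R * (w 0 / w i + 1) ≤ R * 3 := Nat.mul_le_mul_left _ (by omega)
      omega
    · have e1 := hkwg i (by omega) hi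
      set y := w 0 / w i with hy
      have e2 : y * w i ≤ w 0 := Nat.div_mul_le_self _ _
      have e3 : w i * (2 * (R * y)) ≤ w i * k := by
        calc w i * (2 * (R * y)) = 2 * (R * (y * w i)) := by ring
          _ ≤ 2 * (R * w 0) := Nat.mul_le_mul_left _ (Nat.mul_le_mul_left _ e2)
          _ ≤ k * w i := e1
          _ = w i * k := Nat.mul_comm _ _
      have e4 := Nat.le_of_mul_le_mul_left e3 (hwpos i hi)
      rw [Nat.mul_add, Nat.mul_one]
      omega
  · intro j hj1 hjR
    rcases Nat.lt_trichotomy j l with e | e | e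
    · have e1 : (range R).filter (fun i => rho i = j) = ∅ := by
        rw [Finset.filter_eq_empty_iff]
        intro i hi
        rw [mem_range] at hi
        by_cases e2 : i < l
        · rw [hr1 i e2]
          omega
        · have := hr2 i (by omega) hi
          omega
      rw [e1, Finset.sum_empty, Nat.add_zero]
      exact hμ (Nat.sub_le _ _)
    · subst e
      have e1 : ∑ i ∈ (range R).filter (fun i => rho i = j), t i ≤ ∑ i ∈ range R, t i :=
        Finset.sum_le_sum_of_subset (Finset.filter_subset _ _)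
      omega
    · have e1 := hTh j e
      have e2 := hgj j e hjR
      omega
  · have e1 := hTh R hlR
    omega
  · intro i hi hiR
    rw [Nat.le_div_iff_mul_le hN]
    have e1 := (ht2 i (by omega) hiR).1
    rw [hTg i hi] at e1
    have e2 : 4 * h i * N = 4 * (N * h i) := by ring
    omega
  · intro i hi1 hi
    rw [Nat.le_div_iff_mul_le hN]
    have e1 := (ht2 i hi1 (by omega)).1
    rw [hTl i hi] at e1
    have e2 : 2 * h1 * N ≤ τ := by
      refine Nat.le_of_mul_le_mul_left (c := R) ?_ (by omega)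
      have e3 : R * (2 * h1 * N) ≤ 2 * (N * (R * R * h1)) := by
        have e4 : R * (2 * h1 * N) = 2 * (N * (R * h1)) := by ring
        have e5 : R * h1 ≤ R * R * h1 := Nat.mul_le_mul_right _ (Nat.le_mul_of_pos_left _ (by omega))
        rw [e4]
        exact Nat.mul_le_mul_left _ (Nat.mul_le_mul_left _ e5)
      omega
    omega
  · have e1 : N * (R + 1 + 2 * ((l - 1) * h1 + H)) + N * R ≤ τ := by
      refine Nat.le_of_mul_le_mul_left (c := R) ?_ (by omega)
      have e2 : R * (N * (R + 1 + 2 * ((l - 1) * h1 + H)) + N * R) =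
          2 * (N * (R * R)) + N * R + 2 * (N * (R * ((l - 1) * h1))) + 2 * (N * (R * H)) := by ring
      have e3 : N * (R * ((l - 1) * h1)) ≤ N * (R * R * h1) := by
        refine Nat.mul_le_mul_left _ ?_
        rw [Nat.mul_assoc]
        exact Nat.mul_le_mul_left _ (Nat.mul_le_mul_right _ (by omega))
      omega
    omega

end

end Vale.Agent.P181.H412
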