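import Vale.Agent.P181.H412.TopB
import Vale.Agent.P181.H412.Num10
import Vale.Agent.P181.H310.LB7Num
import Vale.Agent.P181.H503.Num7

set_option autoImplicit false

/-!
# P181, T9 = (C): `LB10` from the types of the letters
-/

namespace Vale.Agent.P181.H412

open Finset
open Vale.Agent.P181.T4 (ex low ex_of_lt ex_anti low_anti sum_split)
open Vale.Agent.P181.H463 (gt)
open Vale.Agent.P181.H280 (plethMult)
open Vale.Agent.P181.T7 (Top7 low_le7)
open Vale.Agent.P181.T9
open Vale.Agent.P181.H310 (bal sum_bal bal_le bal_ge bal_bal)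

theorem lb10 (hTyp : TypB) (hCard : CardB) (hTot : TotB) : LB10 := by
  intro a k B n R l N top rho h mu hmu hsum hn haN hRn hL hk hkR hgl h0 hgj hch hup hH hHk hD
    hcount htop
  set D := ∑ i, low R mu i with hDdef
  obtain ⟨hl2, hlR, hr1, hr2, hr3, hr4⟩ := id hL
  have hR3 : 3 ≤ R := by omega
  have hk1 : 64 * (R * R) + 320 * R ≤ k := by
    have : 64 * R * (R + 5) = 64 * (R * R) + 320 * R := by ring
    omega
  have hkpos : 0 < k := by omega
  have hkN1 : k ≤ N := by
    have : k * (R + 1) = k * R + k := by ring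
    omega
  have hN : 0 < N := by omega
  have ha : 0 < a := by omega
  have hexanti : Antitone (ex mu) := fun i j hij => ex_anti hmu hij
  have hsplit := sum_split hRn mu
  obtain ⟨w, t, hw1, hT, hB, hw3, hwpos, hwW, hc1, hc2, hmark, hroom, hth, htl, ht0⟩ :=
    lb10_numbers (μ := ex mu) (D := D) hTot hexanti hL hk hkR (by rw [← hsplit]; exact hsum)
      hgl h0 hgj hch hup hH hHk hD
  -- digits
  set h' : ℕ → ℕ := fun i => if i < l then k / (32 * R ^ 2) else h i with hh'
  have hsplit2 : ∀ f : ℕ → ℕ, ∑ i ∈ Ico 1 R, f i = ∑ i ∈ Ico 1 l, f i + ∑ i ∈ Ico l R, f i :=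
    fun f => (Finset.sum_Ico_consecutive f (by omega) (by omega)).symm
  have hsumh' : ∑ i ∈ Ico 1 R, h' i = (l - 1) * (k / (32 * R ^ 2)) + ∑ i ∈ Ico l R, h i := by
    rw [hsplit2]
    congr 1
    · rw [Finset.sum_congr rfl (fun i hi => show h' i = k / (32 * R ^ 2) from
        if_pos (mem_Ico.1 hi).2), Finset.sum_const, Nat.card_Ico, smul_eq_mul]
    · exact Finset.sum_congr rfl fun i hi => if_neg (Nat.not_lt.2 (mem_Ico.1 hi).1)
  have hprodh' : ∏ i ∈ Ico 1 R, (h' i + 1) =
      (k / (32 * R ^ 2) + 1) ^ (l - 1) * ∏ i ∈ Ico l R, (h i + 1) := by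
    rw [← Finset.prod_Ico_consecutive (fun i => h' i + 1) (show 1 ≤ l by omega) hlR.le]
    congr 1
    · rw [Finset.prod_congr rfl (fun i hi => show h' i + 1 = k / (32 * R ^ 2) + 1 from by
        rw [show h' i = k / (32 * R ^ 2) from if_pos (mem_Ico.1 hi).2]), Finset.prod_const,
        Nat.card_Ico]
    · exact Finset.prod_congr rfl fun i hi => by
        rw [show h' i = h i from if_neg (Nat.not_lt.2 (mem_Ico.1 hi).1)]
  -- contents of the lower part
  have hbal : ∀ q : Fin N, bal N D q ≤ k := by
    intro q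
    have e1 := bal_le N D q
    have e2 : D / N ≤ k / 4 := by
      have e3 : D / N ≤ (N * k / 4) / N := Nat.div_le_div_right (by omega)
      rwa [Nat.div_div_eq_div_mul, Nat.mul_comm 4 N, Nat.mul_div_mul_left _ _ hN] at e3
    omega
  have hNbal : ∀ q : Fin N, N * bal N D q ≤ D + N := by
    intro q
    have e1 := bal_le N D q
    have e2 : N * (D / N) ≤ D := Nat.mul_div_le _ _
    calc N * bal N D q ≤ N * (D / N + 1) := Nat.mul_le_mul_left _ e1
      _ = N * (D / N) + N := by ring
      _ ≤ D + N := by omega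
  have hst : ∑ i ∈ range R, t i = ∑ q : Fin N, (k - bal N D q) := by
    have e1 : ∑ q : Fin N, (k - bal N D q) + ∑ q : Fin N, bal N D q = N * k := by
      rw [← Finset.sum_add_distrib]
      rw [Finset.sum_congr rfl fun q _ => Nat.sub_add_cancel (hbal q)]
      simp
    rw [sum_bal hN] at e1
    omega
  have hsumdiv : N * ∑ i ∈ Ico 1 R, (t i / N + 1) + t 0 ≤ (N * k - D) + N * (R - 1) := by
    rw [Finset.mul_sum]
    have e1 : ∑ i ∈ Ico 1 R, N * (t i / N + 1) ≤ ∑ i ∈ Ico 1 R, (t i + N) := by
      refine Finset.sum_le_sum fun i _ => ?_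
      have := Nat.mul_div_le (t i) N
      rw [Nat.mul_add, Nat.mul_one]
      omega
    rw [Finset.sum_add_distrib, Finset.sum_const, smul_eq_mul, Nat.card_Ico] at e1
    have e3 : ∑ i ∈ range R, t i = t 0 + ∑ i ∈ Ico 1 R, t i := by
      rw [Finset.range_eq_Ico, Finset.sum_eq_sum_Ico_succ_bot (by omega)]
    have e4 : (R - 1) * N = N * (R - 1) := Nat.mul_comm _ _
    omega
  obtain ⟨typ, hT1, hT2, hT3, hT4, hT5, hT6⟩ := hTyp N R (fun q => k - bal N D q) t h'
    (by omega) hst (by
      intro i hi1 hiR
      by_cases e : i < l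
      · rw [show h' i = k / (32 * R ^ 2) from if_pos e]
        exact htl i hi1 e
      · rw [show h' i = h i from if_neg e]
        have := hth i (by omega) hiR
        omega)
    (by
      intro q
      rw [hsumh']
      set Y := (l - 1) * (k / (32 * R ^ 2)) + ∑ i ∈ Ico l R, h i with hY
      have e1 : N * (1 + 2 * Y + ∑ i ∈ Ico 1 R, (t i / N + 1)) ≤ N * (k - bal N D q) := by
        rw [Nat.mul_add, Nat.mul_sub]
        have e2 := hNbal q
        have e3 : N * (R + 1 + 2 * Y) = N * (1 + 2 * Y) + N * (R - 1) + N := by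
          obtain ⟨e, rfl⟩ : ∃ e, R = e + 1 := ⟨R - 1, by omega⟩
          rw [Nat.add_sub_cancel]; ring
        have e4 : D ≤ N * k := by omega
        omega
      exact Nat.le_of_mul_le_mul_left e1 hN)
  -- the number of the marks in the rows `≥ l`
  have hlow : ∀ u (q : Fin N), 2 * ∑ i ∈ Ico l R, h i ≤ ∑ i ∈ Ico l R, typ u q i := by
    intro u q
    rw [Finset.mul_sum]
    refine Finset.sum_le_sum fun i hi => ?_
    rw [mem_Ico] at hi
    have e1 := hT4 u q i (by omega) hi.2
    rw [show h' i = h i from if_neg (Nat.not_lt.2 hi.1)] at e1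
    have e2 := hth i hi.1 hi.2
    omega
  have hEk : D / N + 2 * ∑ i ∈ Ico l R, h i ≤ k := by
    have e1 : D / N ≤ k / 4 := by
      have e3 : D / N ≤ (N * k / 4) / N := Nat.div_le_div_right (by omega)
      rwa [Nat.div_div_eq_div_mul, Nat.mul_comm 4 N, Nat.mul_div_mul_left _ _ hN] at e3
    have e2 : 4 * ∑ i ∈ Ico l R, h i ≤ ∑ i ∈ Ico l R, (4 * h i + 1) := by
      rw [Finset.mul_sum]
      exact Finset.sum_le_sum fun i _ => Nat.le_succ _
    have e3 : ∑ i ∈ Ico l R, (4 * h i + 1) ≤ 16 * R * ∑ i ∈ Ico l R, (4 * h i + 1) :=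
      Nat.le_mul_of_pos_left _ (by omega)
    omega
  -- the design of a type system
  let P : TypU R h' (N / 2) → DatB := fun u =>
    { R := R
      l := l
      k := k
      N := N
      lam := ex mu
      w := w
      u := typ u
      rho := rho
      W := w 0
      K := k - (D / N + 2 * ∑ i ∈ Ico l R, h i)
      hlam := hexanti
      hl := by omega
      hlR := hlR
      hrl := hr1
      hrg := hr2
      h1 := fun i hi => by
        rw [hT1 u i hi]
        exact hw1 i hi
      hpos := hwpos
      hW := hwW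
      hmark := fun j hj1 hj2 => by
        rw [Finset.sum_congr rfl fun i hi =>
          hT1 u i (mem_range.1 (mem_filter.1 hi).1)]
        exact hmark j hj1 hj2
      hroom := by
        rw [Finset.sum_congr rfl fun i hi =>
          hT1 u i (mem_range.1 (mem_filter.1 hi).1)]
        exact hroom
      hK := fun q => by
        have e1 := hlow u q
        have e2 := hT2 u q
        have e3 : ∑ i ∈ range R, typ u q i = ∑ i ∈ range l, typ u q i +
            ∑ i ∈ Ico l R, typ u q i := by
          rw [Finset.range_eq_Ico, Finset.range_eq_Ico,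
            Finset.sum_Ico_consecutive _ (Nat.zero_le _) hlR.le]
        have e4 := bal_ge N D q
        have e5 := hbal q
        omega
      hu0 := fun q => hT3 u q
      hcap1 := fun i hi => by
        have e1 := hc1 i hi
        omega
      hcap2 := hc2 }
  have hm : ∀ u : TypU R h' (N / 2), ∀ i, n ≤ i → (P u).lam i = 0 := by
    intro u i hi
    change ex mu i = 0
    unfold ex
    rw [dif_neg (by omega)]
  have key := low_le7 (m := n) (R := R) (N := N) (b := B) (k := k)
    (T := Σ i : Fin R, Fin (w i)) (cls := fun x => (x.1 : ℕ)) hRn (fun x => x.1.2)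
    (U := TypU R h' (N / 2)) (fun u => Fin ((P u).lam 0))
    (fun u => (P u).topB n (hm u)) (fun _ q => bal N D q) t mu hsum
    (by
      simp only [Fintype.card_sigma, Fintype.card_fin]
      rw [Fin.sum_univ_eq_sum_range w R]
      exact hB)
    (fun u i => by
      have e1 := (P u).topB_rows (hm u) i
      rw [e1]
      change ex mu i = mu i
      rw [ex_of_lt mu i.2])
    (fun u x => (P u).topB_inc (hm u) x)
    (fun u q => by
      have e1 : ∑ i ∈ range R, ((P u).topB n (hm u)).typ q i = ∑ i ∈ range R, typ u q i :=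
        Finset.sum_congr rfl fun i hi => (P u).topB_typ (hm u) q (Finset.mem_range.1 hi)
      rw [e1, hT2 u q]
      exact Nat.sub_add_cancel (hbal q))
    (fun _ i j => bal_bal N D i j)
    (fun u lo _ => (P u).topB_forced (hm u) hw3 t (fun i hi => hT1 u i hi) lo)
    (fun u i hi => by
      have e1 : ∑ q, ((P u).topB n (hm u)).typ q i = ∑ q, typ u q i :=
        Finset.sum_congr rfl fun q _ => (P u).topB_typ (hm u) q hi
      rw [e1]
      exact hT1 u i hi)
    (fun u u' ⟨σ, hσ⟩ => by
      refine (hT6 u' u σ fun q i hi => ?_).symm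
      have e1 := hσ q i hi
      rw [(P u).topB_typ (hm u) q hi, (P u').topB_typ (hm u') (σ q) hi] at e1
      exact e1)
    (fun u q q' h => by
      refine hT5 u q q' fun i hi => ?_
      have e1 := h i hi
      rw [(P u).topB_typ (hm u) q hi, (P u).topB_typ (hm u) q' hi] at e1
      exact e1)
  -- the count
  have hcard := hCard N R h' (by omega) (by omega) (by rw [hprodh']; exact hcount)
  have hnum := Vale.Agent.P181.H503.num7_nat (n := n - R) (a := a) (N := N) (by omega) ha haN
    (eta := low R mu) (low_anti hmu R) top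
    (Fintype.card (TypU R h' (N / 2))) (by
      refine le_trans ?_ hcard
      have hN' : (0 : ℝ) < N := by exact_mod_cast hN
      have e1 : ((∑ i, low R mu i : ℕ) : ℝ) / N ≤ k := by
        rw [div_le_iff₀ hN']
        have e2 : ((∑ i, low R mu i : ℕ) : ℝ) ≤ ((k * N : ℕ) : ℝ) := by
          have e3 : ∑ i, low R mu i ≤ k * N := by
            have : k * N = N * k := Nat.mul_comm _ _
            omega
          exact_mod_cast e3
        push_cast at e2 ⊢
        exact e2
      have e2 : (1 + ((∑ i, low R mu i : ℕ) : ℝ) / N) ^ a ≤ ((k : ℝ) + 1) ^ a := by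
        refine pow_le_pow_left₀ (by positivity) ?_ _
        linarith
      calc (top : ℝ) * (Real.exp N * (1 + ((∑ i, low R mu i : ℕ) : ℝ) / N) ^ a)
          ≤ (top : ℝ) * (Real.exp N * ((k : ℝ) + 1) ^ a) := by
            refine mul_le_mul_of_nonneg_left ?_ (Nat.cast_nonneg _)
            exact mul_le_mul_of_nonneg_left e2 (Real.exp_pos _).le
        _ = Real.exp N * ((top : ℝ) * ((k : ℝ) + 1) ^ a) := by ring
        _ ≤ Real.exp N * Real.exp N := mul_le_mul_of_nonneg_left htop (Real.exp_pos _).le
        _ = Real.exp (2 * N) := by rw [← Real.exp_add]; congr 1; ring)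
  have hC : 0 < (D + N - 1).choose (N - 1) := Nat.choose_pos (by omega)
  have hfin := hnum.trans key
  rw [Nat.mul_comm ((∑ i, low R mu i + N - 1).choose (N - 1)) (plethMult B k n mu)] at hfin
  exact Nat.le_of_mul_le_mul_right hfin hC

end Vale.Agent.P181.H412
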