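import Vale.Agent.P181.H412.LB10
import Vale.Agent.P181.H411.TypB
import Vale.Agent.P181.H921.TotB

set_option autoImplicit false

/-!
# P181, T9: `LB10`, unconditional
-/

namespace Vale.Agent.P181.H412

open Vale.Agent.P181

/-- **LB10.** -/
theorem lb10_stmt : T9.LB10 := lb10 H411.TypB.typB H411.TypB.cardB T9.totB

end Vale.Agent.P181.H412
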