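import Vale.Agent.P181.H310.LBg
import Vale.Agent.P181.T9.Spec
import Vale.Agent.P181.T7.Asm7
import Vale.Agent.P181.T7.Cond

set_option autoImplicit false

/-!
# P181, T9: the criterion with the product of the rows, from `TypeStmt` and `CaseIg 0`
-/

open Filter

namespace Vale.Agent.P181.H412

open Vale.Agent.P181.T4 Vale.Agent.P181.T7 Vale.Agent.P181.H280

/-- Either the rows become small against the number of the remaining cells, or few cells remain. -/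
theorem split_nat (δ : ℝ) (hδ : 0 < δ) : ∀ᶠ a : ℕ in atTop, ∀ (b : ℕ) (lam : Fin a → ℕ),
    b ≤ a ^ 2 → ∑ i, lam i = a * b →
    (∃ R : ℕ, (R : ℝ) ≤ (a : ℝ) ^ (2 * δ) ∧ (a : ℝ) ^ (1 + 0 + 6 * δ) ≤ below R lam ∧
      (a : ℝ) ^ δ * ex lam R ≤ below R lam) ∨
    ∃ R : ℕ, (R : ℝ) ≤ (a : ℝ) ^ (2 * δ) ∧ (below R lam : ℝ) < (a : ℝ) ^ (1 + 6 * δ) := by
  filter_upwards [ev_big δ hδ, eventually_ge_atTop 3] with a hbig ha b lam hb hsum
  have ha3 : (3 : ℝ) ≤ a := by exact_mod_cast ha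
  have ha1 : (1 : ℝ) ≤ a := by linarith
  have ha0 : (0 : ℝ) < a := by linarith
  have hlog : 1 ≤ Real.log a := by
    rw [Real.le_log_iff_exp_le ha0]
    have := Real.exp_one_lt_d9
    linarith
  by_contra hcon
  push Not at hcon
  obtain ⟨h1, h2⟩ := hcon
  set X : ℝ := (a : ℝ) ^ δ with hX
  have hX2 : 4 ≤ X := by linarith
  have hX0 : 0 < X := by linarith
  have e2 : (a : ℝ) ^ (2 * δ) = X ^ 2 := by
    rw [hX, ← Real.rpow_natCast, ← Real.rpow_mul ha0.le]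
    congr 1
    push_cast
    ring
  set B : ℕ := ⌊X ^ 2⌋₊ with hB
  have hBX : (B : ℝ) ≤ X ^ 2 := Nat.floor_le (by positivity)
  have hBX2 : X ^ 2 - 1 < B := by
    have := Nat.lt_floor_add_one (X ^ 2)
    linarith
  have hdec : ∀ i ≤ B, (below (i + 1) lam : ℝ) ≤ (1 - 1 / X) * below i lam := by
    intro i hi
    have hi' : (i : ℝ) ≤ (a : ℝ) ^ (2 * δ) := by
      rw [e2]
      have : (i : ℝ) ≤ B := by exact_mod_cast hi
      linarith
    have h3 := h2 i hi'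
    have h4 := h1 i hi' (by rw [add_zero]; exact h3)
    have h5 : (below i lam : ℝ) = ex lam i + below (i + 1) lam := by
      exact_mod_cast below_succ (R := i) lam
    have h6 : (below i lam : ℝ) / X < ex lam i := by
      rw [div_lt_iff₀ hX0]
      linarith
    have h7 : (1 - 1 / X) * (below i lam : ℝ) = below i lam - below i lam / X := by ring
    linarith
  have h01 : 0 ≤ 1 - 1 / X := by
    rw [sub_nonneg, div_le_one hX0]
    linarith
  have hall : ∀ i, i ≤ B → (below i lam : ℝ) ≤ (1 - 1 / X) ^ i * below 0 lam := by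
    intro i
    induction i with
    | zero => intro _; simp
    | succ i ih =>
      intro hi
      calc (below (i + 1) lam : ℝ) ≤ (1 - 1 / X) * below i lam := hdec i (by omega)
        _ ≤ (1 - 1 / X) * ((1 - 1 / X) ^ i * below 0 lam) :=
            mul_le_mul_of_nonneg_left (ih (by omega)) h01
        _ = _ := by ring
  have h3 : (1 - 1 / X) ^ B ≤ Real.exp (-(X - 1)) := by
    have h5 : 1 - 1 / X ≤ Real.exp (-(1 / X)) := by
      have := Real.add_one_le_exp (-(1 / X))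
      linarith
    calc (1 - 1 / X) ^ B ≤ (Real.exp (-(1 / X))) ^ B := pow_le_pow_left₀ h01 h5 _
      _ = Real.exp (-(B / X)) := by
          rw [← Real.exp_nat_mul]
          congr 1
          ring
      _ ≤ Real.exp (-(X - 1)) := by
          rw [Real.exp_le_exp]
          have h6 : X - 1 ≤ B / X := by
            rw [le_div_iff₀ hX0]
            nlinarith
          linarith
  have h4 : (a : ℝ) ^ 3 = Real.exp (3 * Real.log a) := by
    rw [mul_comm, Real.exp_mul, Real.exp_log ha0]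
    norm_cast
  have hD0 : (below 0 lam : ℝ) ≤ (a : ℝ) ^ 3 := by
    rw [below_zero, hsum]
    have : a * b ≤ a ^ 3 := by
      calc a * b ≤ a * a ^ 2 := Nat.mul_le_mul_left _ hb
        _ = a ^ 3 := by ring
    exact_mod_cast this
  have hD00 : (0 : ℝ) ≤ below 0 lam := Nat.cast_nonneg _
  have h5 : (below B lam : ℝ) < 1 := by
    calc (below B lam : ℝ) ≤ (1 - 1 / X) ^ B * below 0 lam := hall B le_rfl
      _ ≤ Real.exp (-(X - 1)) * (a : ℝ) ^ 3 :=
          mul_le_mul h3 hD0 hD00 (Real.exp_pos _).le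
      _ = Real.exp (3 * Real.log a - (X - 1)) := by
          rw [h4, ← Real.exp_add]
          congr 1
          ring
      _ < Real.exp 0 := by
          rw [Real.exp_lt_exp]
          linarith
      _ = 1 := Real.exp_zero
  have h6 := h2 B (by rw [e2]; exact hBX)
  have h7 : (1 : ℝ) ≤ (a : ℝ) ^ (1 + 6 * δ) := Real.one_le_rpow ha1 (by linarith)
  linarith

/-- Reduction of the product to at most `M` rows, all of them large. -/
theorem prod_red {ε : ℝ} (hε1 : ε ≤ 1) {a : ℝ} (ha : 1 < a) {x : ℕ → ℝ}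
    (hx : Antitone x) (hx0 : ∀ i, 0 ≤ x i) (M : ℕ) (hM : 2 ≤ M * ε) :
    ∀ m : ℕ, a ^ (1 + m * (1 + ε)) ≤ ∏ i ∈ Finset.Ico 1 (m + 1), x i →
      ∃ m', 1 ≤ m' ∧ m' ≤ M ∧ a ^ (1 + ε) ≤ x m' ∧
        a ^ (1 + m' + ε) ≤ ∏ i ∈ Finset.Ico 1 (m' + 1), x i := by
  have ha0 : (0 : ℝ) < a := by linarith
  have hM1 : 1 ≤ M := by
    rcases Nat.eq_zero_or_pos M with h | h
    · subst h
      norm_num at hM
    · exact h
  have hε : 0 < ε := by
    by_contra hcon
    push Not at hcon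
    have : (M : ℝ) * ε ≤ 0 := mul_nonpos_of_nonneg_of_nonpos (Nat.cast_nonneg _) hcon
    linarith
  intro m
  induction m with
  | zero =>
    intro h
    simp only [Nat.cast_zero, zero_mul, add_zero, Real.rpow_one, zero_add, Finset.Ico_self,
      Finset.prod_empty] at h
    linarith
  | succ m ih =>
    intro h
    rcases le_or_gt (a ^ (1 + ε)) (x (m + 1)) with h1 | h1
    · rcases Nat.le_total (m + 1) M with h2 | h2
      · refine ⟨m + 1, by omega, h2, h1, le_trans ?_ h⟩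
        apply Real.rpow_le_rpow_of_exponent_le ha.le
        have : (0 : ℝ) ≤ (m : ℝ) * ε := by positivity
        push_cast
        nlinarith
      · refine ⟨M, hM1, le_rfl, h1.trans (hx h2), ?_⟩
        calc a ^ (1 + (M : ℝ) + ε) ≤ a ^ ((1 + ε) * M) := by
              apply Real.rpow_le_rpow_of_exponent_le ha.le
              nlinarith
          _ = ∏ _i ∈ Finset.Ico 1 (M + 1), a ^ (1 + ε) := by
              rw [Finset.prod_const, Nat.card_Ico, Nat.add_sub_cancel, Real.rpow_mul ha0.le,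
                Real.rpow_natCast]
          _ ≤ ∏ i ∈ Finset.Ico 1 (M + 1), x i := by
              apply Finset.prod_le_prod
              · intro i _
                positivity
              · intro i hi
                rw [Finset.mem_Ico] at hi
                exact h1.trans (hx (by omega))
    · apply ih
      rw [Finset.prod_Ico_succ_top (by omega)] at h
      have h2 : a ^ (1 + ((m + 1 : ℕ) : ℝ) * (1 + ε)) = a ^ (1 + (m : ℝ) * (1 + ε)) * a ^ (1 + ε) := by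
        rw [← Real.rpow_add ha0]
        congr 1
        push_cast
        ring
      rw [h2] at h
      have h3 : 0 < a ^ (1 + ε) := by positivity
      have h4 : 0 ≤ ∏ i ∈ Finset.Ico 1 (m + 1), x i := Finset.prod_nonneg fun i _ => hx0 i
      have h5 : (∏ i ∈ Finset.Ico 1 (m + 1), x i) * x (m + 1) ≤
          (∏ i ∈ Finset.Ico 1 (m + 1), x i) * a ^ (1 + ε) :=
        mul_le_mul_of_nonneg_left h1.le h4
      exact le_of_mul_le_mul_right (h.trans h5) h3

/-- **The product criterion** for all large `a`. -/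
theorem nat10 (hT : T9.TypeStmt) (hI : T8.CaseIg 0) (ε : ℝ) (hε : 0 < ε) :
    ∀ᶠ a : ℕ in atTop, ∀ (b : ℕ), (a : ℝ) ^ (1 + ε) ≤ b → ∀ lam : Fin a → ℕ, Antitone lam →
      ∑ i, lam i = a * b → (∃ m : ℕ, (a : ℝ) ^ (1 + m * (1 + ε)) ≤
        ∏ i ∈ Finset.Ico 1 (m + 1), min (ex lam i : ℝ) ((a : ℝ) ^ 2)) →
      plethMult a b a lam ≤ plethMult b a a lam := by
  -- the case `ε > 1` is trivial
  rcases lt_or_ge 1 ε with hε1 | hε1
  · filter_upwards [eventually_ge_atTop 2] with a ha b hb lam _ _ _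
    apply H463.big_stmt
    have ha1 : (1 : ℝ) ≤ a := by exact_mod_cast (by omega : 1 ≤ a)
    have h1 : ((a : ℝ)) ^ 2 ≤ b := by
      refine le_trans ?_ hb
      rw [← Real.rpow_natCast]
      apply Real.rpow_le_rpow_of_exponent_le ha1
      push_cast
      linarith
    have h2 : a ^ 2 ≤ b := by exact_mod_cast h1
    exact (Nat.pow_le_pow_left (Nat.sub_le a 1) 2).trans h2
  obtain ⟨M, hM⟩ := exists_nat_ge (2 / ε)
  have hM2 : 2 ≤ (M : ℝ) * ε := by rwa [div_le_iff₀ hε] at hM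
  have hT' : ∀ m : ℕ, ∃ δ : ℝ, 0 < δ ∧ (2 ≤ m → ∀ᶠ a : ℕ in Filter.atTop,
      ∀ (b R : ℕ) (lam : Fin a → ℕ), b ≤ a ^ 2 → (a : ℝ) ^ (1 + ε / 2) ≤ b →
      Antitone lam → ∑ i, lam i = a * b → m ≤ R → (R : ℝ) ≤ (a : ℝ) ^ δ →
      (a : ℝ) ^ (ε / 2) * below R lam ≤ ex lam (m - 1) → (a : ℝ) ^ (1 + ε / 2) ≤ ex lam (m - 1) →
      (a : ℝ) ^ (m + ε / 2) ≤ ∏ i ∈ Finset.Ico 1 m, min (ex lam i : ℝ) ((a : ℝ) ^ 2) →
      plethMult a b a lam ≤ plethMult b a a lam) := by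
    intro m
    rcases Nat.lt_or_ge m 2 with h | h
    · exact ⟨1, one_pos, fun h2 => absurd h2 (by omega)⟩
    · obtain ⟨δ, h1, h2⟩ := hT m (ε / 2) h (by positivity)
      exact ⟨δ, h1, fun _ => h2⟩
  choose δm hδm hTm using hT'
  obtain ⟨δ0, hδ0, hδ0m⟩ : ∃ δ0 : ℝ, 0 < δ0 ∧ ∀ m ≤ M + 1, δ0 ≤ δm m := by
    have hne : (Finset.range (M + 2)).Nonempty := ⟨0, Finset.mem_range.2 (by omega)⟩
    refine ⟨(Finset.range (M + 2)).inf' hne δm, (Finset.lt_inf'_iff hne).2 fun m _ => hδm m, ?_⟩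
    intro m hm
    exact Finset.inf'_le _ (Finset.mem_range.2 (by omega))
  set δ : ℝ := min (δ0 / 2) (min (ε / 12) (1 / 100)) with hδdef
  have hδ : 0 < δ := lt_min (by positivity) (lt_min (by positivity) (by norm_num))
  have hδ1 : δ ≤ 1 / 100 := (min_le_right _ _).trans (min_le_right _ _)
  have hδ2 : 2 * δ ≤ δ0 := by
    have := min_le_left (δ0 / 2) (min (ε / 12) (1 / 100))
    linarith
  have hδ3 : 12 * δ ≤ ε := by
    have := (min_le_right (δ0 / 2) (min (ε / 12) (1 / 100))).trans (min_le_left _ _)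
    linarith
  have hall : ∀ᶠ a : ℕ in atTop, ∀ m ∈ Finset.Icc 2 (M + 1), ∀ (b R : ℕ) (lam : Fin a → ℕ),
      b ≤ a ^ 2 → (a : ℝ) ^ (1 + ε / 2) ≤ b →
      Antitone lam → ∑ i, lam i = a * b → m ≤ R → (R : ℝ) ≤ (a : ℝ) ^ δm m →
      (a : ℝ) ^ (ε / 2) * below R lam ≤ ex lam (m - 1) → (a : ℝ) ^ (1 + ε / 2) ≤ ex lam (m - 1) →
      (a : ℝ) ^ (m + ε / 2) ≤ ∏ i ∈ Finset.Ico 1 m, min (ex lam i : ℝ) ((a : ℝ) ^ 2) →
      plethMult a b a lam ≤ plethMult b a a lam := by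
    rw [Filter.eventually_all_finset]
    intro m hm
    exact hTm m (Finset.mem_Icc.1 hm).1
  filter_upwards [split_nat δ hδ, hI δ hδ hδ1, hall, eventually_ge_atTop 2] with a hs c1 c2
    ha b hb lam hlam hsum hprod
  have ha1 : (1 : ℝ) < a := by exact_mod_cast (by omega : 1 < a)
  have ha0 : (0 : ℝ) < a := by linarith
  rcases Nat.lt_or_ge (a ^ 2) b with hb2 | hb2
  · apply H463.big_stmt
    exact (Nat.pow_le_pow_left (Nat.sub_le a 1) 2).trans hb2.le
  have hb' : (a : ℝ) ^ (1 + 9 * δ) ≤ b :=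
    (Real.rpow_le_rpow_of_exponent_le ha1.le (by linarith)).trans hb
  have hb'' : (a : ℝ) ^ (1 + ε / 2) ≤ b :=
    (Real.rpow_le_rpow_of_exponent_le ha1.le (by linarith)).trans hb
  rcases hs b lam hb2 hsum with ⟨R, h1, h2, h3⟩ | ⟨R, h1, h2⟩
  · exact c1 b R lam hb2 hb' hlam hsum h1 h2 h3
  obtain ⟨m, hm⟩ := hprod
  have hx : Antitone fun i => min (ex lam i : ℝ) ((a : ℝ) ^ 2) := by
    intro i j hij
    apply min_le_min_right
    exact_mod_cast ex_anti hlam hij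
  obtain ⟨m', hm1, hmM, hrow, hpr⟩ := prod_red hε1 ha1 hx (fun i => by positivity) M hM2 m hm
  have hrow' : (a : ℝ) ^ (1 + ε) ≤ ex lam m' := hrow.trans (min_le_left _ _)
  have hRm : m' + 1 ≤ R := by
    by_contra hcon
    have h4 : ex lam m' ≤ below R lam :=
      (ex_anti hlam (by omega : R ≤ m')).trans (ex_le_below lam R)
    have h5 : (ex lam m' : ℝ) ≤ below R lam := by exact_mod_cast h4
    have h6 : (a : ℝ) ^ (1 + 6 * δ) ≤ (a : ℝ) ^ (1 + ε) :=
      Real.rpow_le_rpow_of_exponent_le ha1.le (by linarith)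
    linarith
  refine c2 (m' + 1) (by rw [Finset.mem_Icc]; omega) b R lam hb2 hb'' hlam hsum hRm ?_ ?_ ?_ ?_
  · refine h1.trans (Real.rpow_le_rpow_of_exponent_le ha1.le ?_)
    exact hδ2.trans (hδ0m _ (by omega))
  · rw [Nat.add_sub_cancel]
    refine le_trans ?_ hrow'
    calc (a : ℝ) ^ (ε / 2) * below R lam ≤ (a : ℝ) ^ (ε / 2) * (a : ℝ) ^ (1 + 6 * δ) :=
          mul_le_mul_of_nonneg_left h2.le (by positivity)
      _ = (a : ℝ) ^ (ε / 2 + (1 + 6 * δ)) := (Real.rpow_add ha0 _ _).symm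
      _ ≤ (a : ℝ) ^ (1 + ε) := Real.rpow_le_rpow_of_exponent_le ha1.le (by linarith)
  · rw [Nat.add_sub_cancel]
    exact (Real.rpow_le_rpow_of_exponent_le ha1.le (by linarith)).trans hrow'
  · refine le_trans (Real.rpow_le_rpow_of_exponent_le ha1.le ?_) hpr
    push_cast
    linarith

/-- The passage from large `a` (and `a` rows) to all `a` (and all numbers of rows). -/
theorem const_of_eventually' {x : ℝ} (hx : 0 ≤ x) (Q : ℕ → ℝ → (ℕ → ℕ) → Prop)
    (hQ1 : ∀ (a : ℕ) (C : ℝ) (f : ℕ → ℕ), 1 ≤ C → Q a C f → Q a 1 f)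
    (h : ∀ᶠ a : ℕ in Filter.atTop, ∀ b : ℕ, (a : ℝ) ^ x ≤ b → ∀ lam : Fin a → ℕ, Antitone lam →
      ∑ i, lam i = a * b → Q a 1 (fun j => below j lam) →
      plethMult a b a lam ≤ plethMult b a a lam) :
    ∃ C : ℝ, 1 ≤ C ∧ ∀ (a b n : ℕ) (lam : Fin n → ℕ), C * (a : ℝ) ^ x ≤ b →
      Q a C (fun j => cells j lam) → plethMult a b n lam ≤ plethMult b a n lam := by
  obtain ⟨a₀, h0⟩ := Filter.eventually_atTop.1 h
  refine ⟨(a₀ : ℝ) ^ 2 + 1, by nlinarith [sq_nonneg (a₀ : ℝ)], fun a b n lam hb hD => ?_⟩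
  have hC : (1 : ℝ) ≤ (a₀ : ℝ) ^ 2 + 1 := by nlinarith [sq_nonneg (a₀ : ℝ)]
  rcases Nat.lt_or_ge a a₀ with ha | ha
  · apply H463.big_stmt
    rcases Nat.eq_zero_or_pos a with ha0 | ha0
    · subst ha0
      simp
    · have h1 : (1 : ℝ) ≤ (a : ℝ) ^ x := Real.one_le_rpow (by exact_mod_cast ha0) hx
      have h2 : (a₀ : ℝ) ^ 2 ≤ b := by nlinarith [sq_nonneg (a₀ : ℝ)]
      have h3 : a₀ ^ 2 ≤ b := by exact_mod_cast h2
      exact (Nat.pow_le_pow_left (by omega) 2).trans h3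
  · have hb' : (a : ℝ) ^ x ≤ b := by
      have h1 : (0 : ℝ) ≤ (a : ℝ) ^ x := by positivity
      nlinarith
    exact all_n_cells H530.pad_stmt H530.zero_stmt (fun f => Q a 1 f)
      (fun mu hmu hsum hQ => h0 a ha b hb' mu hmu hsum hQ) n lam (hQ1 a _ _ hC hD)

lemma ex_below {a : ℕ} (lam : Fin a → ℕ) (i : ℕ) : ex lam i = below i lam - below (i + 1) lam := by
  have := below_succ (R := i) lam
  omega

lemma ex_cells {n : ℕ} (lam : Fin n → ℕ) (i : ℕ) : ex lam i = cells i lam - cells (i + 1) lam := by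
  rw [← below_cells, ← below_cells]
  exact ex_below lam i

/-- **The product criterion**, with one constant for all `m`: if `b ≥ C a ^ (1 + ε)` and
`∏_{i = 2}^{m + 1} min (λ_i, a ^ 2) ≥ C a ^ (1 + m (1 + ε))` for some `m`, then Foulkes'
inequality holds for `λ`. -/
theorem nat_const (hT : T9.TypeStmt) (hI : T8.CaseIg 0) (ε : ℝ) (hε : 0 < ε) :
    ∃ C : ℝ, 1 ≤ C ∧ ∀ (a b n : ℕ) (lam : Fin n → ℕ), C * (a : ℝ) ^ (1 + ε) ≤ b →
      (∃ m : ℕ, C * (a : ℝ) ^ (1 + m * (1 + ε)) ≤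
        ∏ i ∈ Finset.Ico 1 (m + 1), min (ex lam i : ℝ) ((a : ℝ) ^ 2)) →
      plethMult a b n lam ≤ plethMult b a n lam := by
  have hQ1 : ∀ (a : ℕ) (C : ℝ) (f : ℕ → ℕ), 1 ≤ C → (∃ m : ℕ, C * (a : ℝ) ^ (1 + m * (1 + ε)) ≤
      ∏ i ∈ Finset.Ico 1 (m + 1), min ((f i - f (i + 1) : ℕ) : ℝ) ((a : ℝ) ^ 2)) →
      ∃ m : ℕ, (1 : ℝ) * (a : ℝ) ^ (1 + m * (1 + ε)) ≤
        ∏ i ∈ Finset.Ico 1 (m + 1), min ((f i - f (i + 1) : ℕ) : ℝ) ((a : ℝ) ^ 2) := by
    rintro a C f hC ⟨m, hm⟩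
    refine ⟨m, le_trans ?_ hm⟩
    have : (0 : ℝ) ≤ (a : ℝ) ^ (1 + m * (1 + ε)) := by positivity
    exact mul_le_mul_of_nonneg_right hC this
  have hev : ∀ᶠ a : ℕ in atTop, ∀ b : ℕ, (a : ℝ) ^ (1 + ε) ≤ b → ∀ lam : Fin a → ℕ,
      Antitone lam → ∑ i, lam i = a * b → (∃ m : ℕ, (1 : ℝ) * (a : ℝ) ^ (1 + m * (1 + ε)) ≤
        ∏ i ∈ Finset.Ico 1 (m + 1), min ((below i lam - below (i + 1) lam : ℕ) : ℝ)
          ((a : ℝ) ^ 2)) →
      plethMult a b a lam ≤ plethMult b a a lam := by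
    filter_upwards [nat10 hT hI ε hε] with a ha b hb lam hlam hsum hm
    apply ha b hb lam hlam hsum
    obtain ⟨m, hm⟩ := hm
    refine ⟨m, ?_⟩
    rw [one_mul] at hm
    refine hm.trans (le_of_eq ?_)
    apply Finset.prod_congr rfl
    intro i _
    rw [ex_below]
  obtain ⟨C, hC1, hC⟩ := const_of_eventually' (by linarith : (0 : ℝ) ≤ 1 + ε)
    (fun a C f => ∃ m : ℕ, C * (a : ℝ) ^ (1 + m * (1 + ε)) ≤
        ∏ i ∈ Finset.Ico 1 (m + 1), min ((f i - f (i + 1) : ℕ) : ℝ) ((a : ℝ) ^ 2)) hQ1 hev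
  refine ⟨C, hC1, fun a b n lam hb hm => hC a b n lam hb ?_⟩
  obtain ⟨m, hm⟩ := hm
  refine ⟨m, hm.trans (le_of_eq ?_)⟩
  apply Finset.prod_congr rfl
  intro i _
  rw [ex_cells]

end Vale.Agent.P181.H412
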