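import Vale.Agent.P181.H412.DesB

set_option autoImplicit false

/-!
# P181, T9 = (C): the multi-level design as a `Top7` frame, and `Forced`
-/

open scoped Classical

namespace Vale.Agent.P181.H412

open Finset Vale.Agent.P181.T7 Vale.Agent.P181.T4

namespace DatB

variable (P : DatB) (m : ℕ)

/-- the length of the column `c` -/
noncomputable def lenm (c : ℕ) : ℕ := ((range m).filter fun i => c < P.lam i).card

theorem lt_lenm (hm : ∀ i, m ≤ i → P.lam i = 0) (i c : ℕ) : i < P.lenm m c ↔ c < P.lam i := by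
  have key : ∀ j, c < P.lam j → j + 1 ≤ P.lenm m c := by
    intro j hj
    have hjm : j < m := by
      by_contra h
      rw [hm j (by omega)] at hj
      omega
    have hsub : range (j + 1) ⊆ (range m).filter fun i => c < P.lam i := by
      intro k hk
      rw [mem_range] at hk
      rw [mem_filter, mem_range]
      exact ⟨by omega, lt_of_lt_of_le hj (P.hlam (by omega))⟩
    have := card_le_card hsub
    rwa [card_range] at this
  constructor
  · intro h
    by_contra hcon
    have hsub : ((range m).filter fun i => c < P.lam i) ⊆ range i := by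
      intro k hk
      rw [mem_filter] at hk
      rw [mem_range]
      by_contra hk'
      exact hcon (lt_of_lt_of_le hk.2 (P.hlam (by omega)))
    have := card_le_card hsub
    rw [card_range] at this
    unfold lenm at h
    omega
  · intro h
    exact key i h

theorem lenm_le (c : ℕ) : P.lenm m c ≤ m := by
  have := card_filter_le (range m) (fun i => c < P.lam i)
  rwa [card_range] at this

theorem srv_cases (i : Fin P.R) (c : ℕ) : (∃ q, P.srv c i = Sum.inr q) ∨
    ∃ g, P.srv c i = Sum.inl ⟨i, g⟩ := by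
  by_cases h : c ∈ P.mrk i
  · exact Or.inl (P.srv_of_mrk i h)
  · exact Or.inr ⟨_, P.srv_pure i h⟩

/-- the frame -/
noncomputable def topB (hm : ∀ i, m ≤ i → P.lam i = 0) :
    Top7 m P.R P.N P.T (fun t => (t.1 : ℕ)) (Fin (P.lam 0)) where
  len c := P.lenm m c
  len_le c := P.lenm_le m c
  srv c i := P.srv c i
  serve := by
    intro c i hi hiR
    rw [P.lt_lenm m hm] at hi
    rcases P.serve i hiR c hi with h | ⟨h1, h3, h4⟩
    · exact Or.inl h
    · right
      have hlen : P.lenm m c ≤ P.R := by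
        by_contra hcon
        have : P.R < P.lenm m c := by omega
        rw [P.lt_lenm m hm] at this
        omega
      exact ⟨hlen, h3, fun i' hi' hne => h4 i' (by omega) hne⟩

variable {m} (hm : ∀ i, m ≤ i → P.lam i = 0)

theorem topB_rows (i : Fin m) :
    (univ.filter fun c => (i : ℕ) < (P.topB m hm).len c).card = P.lam i := by
  have h1 : (univ.filter fun c => (i : ℕ) < (P.topB m hm).len c) =
      univ.filter fun c : Fin (P.lam 0) => (c : ℕ) < P.lam i := by
    ext c
    simp only [mem_filter, mem_univ, true_and]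
    exact P.lt_lenm m hm i c
  have hle : P.lam i ≤ P.lam 0 := P.hlam (Nat.zero_le _)
  rw [h1]
  have h2 : (univ.filter fun c : Fin (P.lam 0) => (c : ℕ) < P.lam i).map Fin.valEmbedding =
      range (P.lam i) := by
    ext c
    simp only [mem_map, mem_filter, mem_univ, true_and, Fin.valEmbedding_apply, mem_range]
    constructor
    · rintro ⟨c', hc', rfl⟩
      exact hc'
    · intro hc
      exact ⟨⟨c, by omega⟩, hc, rfl⟩
  rw [← card_map, h2, card_range]

/-- Counting over the columns of row `i`. -/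
theorem card_cols (i : ℕ) (p : ℕ → Prop) [DecidablePred p] :
    (univ.filter fun c : Fin (P.lam 0) => (c : ℕ) < P.lam i ∧ p c).card =
      ((range (P.lam i)).filter fun c => p c).card := by
  have hle : P.lam i ≤ P.lam 0 := P.hlam (Nat.zero_le _)
  have h2 : (univ.filter fun c : Fin (P.lam 0) => (c : ℕ) < P.lam i ∧ p c).map Fin.valEmbedding =
      (range (P.lam i)).filter fun c => p c := by
    ext c
    simp only [mem_map, mem_filter, mem_univ, true_and, Fin.valEmbedding_apply, mem_range]
    constructor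
    · rintro ⟨c', hc', rfl⟩
      exact hc'
    · intro hc
      exact ⟨⟨c, by omega⟩, hc, rfl⟩
  rw [← card_map, h2]

theorem topB_typ (q : Fin P.N) {i : ℕ} (hi : i < P.R) : (P.topB m hm).typ q i = P.u q i := by
  rw [← P.typ q i hi, ← P.card_cols i (fun c => P.srv c i = Sum.inr q), Top7.typ]
  congr 1
  ext c
  simp only [mem_filter, mem_univ, true_and]
  constructor
  · rintro ⟨_, h1, h2⟩
    exact ⟨(P.lt_lenm m hm i c).mp h1, h2⟩
  · rintro ⟨h1, h2⟩
    exact ⟨hi, (P.lt_lenm m hm i c).mpr h1, h2⟩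

theorem topB_inc (t : P.T) : (P.topB m hm).inc (Sum.inl t) = P.k := by
  rw [← P.inc t, ← P.card_cols t.1 (fun c => P.srv c t.1 = Sum.inl t), Top7.inc, card_filter]
  refine sum_congr rfl fun c _ => ?_
  have hset : ((range ((P.topB m hm).len c)).filter
      (fun i => i < P.R ∧ (P.topB m hm).srv c i = Sum.inl t)) =
      if (c : ℕ) < P.lam t.1 ∧ P.srv c t.1 = Sum.inl t then {(t.1 : ℕ)} else ∅ := by
    ext i
    rw [mem_filter, mem_range]
    have hsrv : ∀ hi : i < P.R, P.srv c i = Sum.inl t → i = t.1 := by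
      intro hi h
      rcases P.srv_cases ⟨i, hi⟩ c with ⟨q, hq⟩ | ⟨g, hg⟩
      · have : (Sum.inr q : P.T ⊕ Fin P.N) = Sum.inl t := hq.symm.trans h
        exact absurd this (by simp)
      · have : (Sum.inl ⟨⟨i, hi⟩, g⟩ : P.T ⊕ Fin P.N) = Sum.inl t := hg.symm.trans h
        have h3 := Sum.inl.inj this
        rw [← h3]
    constructor
    · rintro ⟨h1, h2, h3⟩
      have h3' : P.srv c i = Sum.inl t := h3
      have hit := hsrv h2 h3'
      subst hit
      have h1' : (c : ℕ) < P.lam t.1 := (P.lt_lenm m hm _ c).mp h1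
      rw [if_pos ⟨h1', h3'⟩]
      simp
    · intro h
      split_ifs at h with hc
      · rw [mem_singleton] at h
        subst h
        exact ⟨(P.lt_lenm m hm _ c).mpr hc.1, t.1.2, hc.2⟩
      · simp at h
  have e := congrArg Finset.card hset
  have e2 : (if (c : ℕ) < P.lam t.1 ∧ P.srv c t.1 = Sum.inl t then ({(t.1 : ℕ)} : Finset ℕ)
      else ∅).card = if (c : ℕ) < P.lam t.1 ∧ P.srv c t.1 = Sum.inl t then 1 else 0 := by
    split_ifs <;> simp
  have e3 : ((range ((P.topB m hm).len c)).filter
      (fun i => i < P.R ∧ (P.topB m hm).srv c i = Sum.inl t)).card =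
      if (c : ℕ) < P.lam t.1 ∧ P.srv c t.1 = Sum.inl t then 1 else 0 := e.trans e2
  rw [← e3]
  congr 1
  ext i
  simp only [mem_filter]

theorem card_T : Fintype.card P.T = ∑ i : Fin P.R, P.w i := by
  simp [Fintype.card_sigma]

theorem len_le_iff {j : ℕ} (c : Fin (P.lam 0)) :
    (P.topB m hm).len c ≤ j ↔ P.lam j ≤ (c : ℕ) := by
  have h := P.lt_lenm m hm j c
  change P.lenm m c ≤ j ↔ _
  constructor
  · intro h1
    by_contra h2
    exact absurd (h.2 (by omega)) (by omega)
  · intro h1
    by_contra h2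
    exact absurd (h.1 (by omega)) (by omega)

/-- the services in the columns of length at most `l` -/
theorem shc_eq (p : P.T ⊕ Fin P.N) :
    shc P.l (P.topB m hm).len (P.topB m hm).srv p = ∑ i ∈ range P.l,
      ((range (P.lam i)).filter fun c => P.lam P.l ≤ c ∧ P.srv c i = p).card := by
  unfold shc
  calc _ = ∑ c : Fin (P.lam 0), ∑ i ∈ range P.l,
        (if (c : ℕ) < P.lam i ∧ P.lam P.l ≤ (c : ℕ) ∧ P.srv c i = p then 1 else 0) := by
        refine sum_congr rfl fun c _ => ?_
        by_cases hc : (P.topB m hm).len c ≤ P.l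
        · rw [if_pos hc, card_filter, ← sum_subset (range_subset_range.2 hc)]
          · refine sum_congr rfl fun i hi => ?_
            rw [mem_range] at hi
            have h2 : (c : ℕ) < P.lam i := (P.lt_lenm m hm i c).1 hi
            have h3 := (P.len_le_iff hm c).1 hc
            by_cases h4 : P.srv c i = p
            · have h4' : (P.topB m hm).srv c i = p := h4
              rw [if_pos h4', if_pos ⟨h2, h3, h4⟩]
            · have h4' : ¬ (P.topB m hm).srv c i = p := h4
              rw [if_neg h4', if_neg (fun h => h4 h.2.2)]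
          · intro i _ hi
            rw [mem_range, not_lt] at hi
            have h3 := (P.len_le_iff hm c).1 hi
            rw [if_neg (fun h => by omega)]
        · rw [if_neg hc]
          symm
          refine sum_eq_zero fun i _ => if_neg fun h => hc ?_
          exact (P.len_le_iff hm c).2 h.2.1
    _ = _ := by
        rw [sum_comm]
        refine sum_congr rfl fun i _ => ?_
        rw [← card_filter]
        exact P.card_cols i (fun c => P.lam P.l ≤ c ∧ P.srv c i = p)

/-- marks of the rows `< l` are in the columns of length exactly `l` -/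
theorem mark_short {i : ℕ} (hi : i < P.l) {c : ℕ} {q : Fin P.N} (h : P.srv c i = Sum.inr q) :
    P.lam P.l ≤ c := by
  have hiR : i < P.R := lt_trans hi P.hlR
  by_cases hc : c ∈ P.mrk ⟨i, hiR⟩
  · have h1 := (P.mrk_ge hc).2.1
    rwa [P.hrl i hi] at h1
  · have h2 := P.srv_pure ⟨i, hiR⟩ hc
    rw [show P.srv c ((⟨i, hiR⟩ : Fin P.R) : ℕ) = P.srv c i from rfl, h] at h2
    exact absurd h2 (by simp)

theorem shc_free (q : Fin P.N) :
    shc P.l (P.topB m hm).len (P.topB m hm).srv (Sum.inr q) = ∑ i ∈ range P.l, P.u q i := by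
  rw [P.shc_eq hm]
  refine sum_congr rfl fun i hi => ?_
  rw [mem_range] at hi
  rw [← P.typ q i (lt_trans hi P.hlR)]
  congr 1
  ext c
  simp only [mem_filter]
  constructor
  · rintro ⟨h1, -, h3⟩
    exact ⟨h1, h3⟩
  · rintro ⟨h1, h3⟩
    exact ⟨h1, P.mark_short hi h3, h3⟩

theorem shc_pure (t : P.T) (ht : (t.1 : ℕ) < P.l) :
    P.k ≤ shc P.l (P.topB m hm).len (P.topB m hm).srv (Sum.inl t) +
      (P.R * (P.W / P.w t.1 + 1) + (P.lam P.l / P.w t.1 + 1)) := by
  rw [P.shc_eq hm]
  have h1 : ((range (P.lam t.1)).filter fun c => P.lam P.l ≤ c ∧ P.srv c t.1 = Sum.inl t).card ≤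
      ∑ i ∈ range P.l,
        ((range (P.lam i)).filter fun c => P.lam P.l ≤ c ∧ P.srv c i = Sum.inl t).card :=
    single_le_sum (f := fun i =>
      ((range (P.lam i)).filter fun c => P.lam P.l ≤ c ∧ P.srv c i = Sum.inl t).card)
      (fun _ _ => Nat.zero_le _) (mem_range.2 ht)
  have h2 : ((range (P.lam t.1)).filter fun c => P.srv c t.1 = Sum.inl t).card ≤
      ((range (P.lam t.1)).filter fun c => P.lam P.l ≤ c ∧ P.srv c t.1 = Sum.inl t).card +
      ((P.A t.1).filter fun c => P.pre t.1 c = some (t.2 : ℕ)).card := by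
    refine le_trans (card_le_card ?_) (card_union_le _ _)
    intro c hc
    rw [mem_filter, mem_range] at hc
    rw [mem_union, mem_filter, mem_filter, mem_range]
    by_cases h3 : P.lam P.l ≤ c
    · exact Or.inl ⟨hc.1, h3, hc.2⟩
    · right
      rw [not_le] at h3
      have hA := P.mem_A_long t.1 ht h3
      refine ⟨hA, ?_⟩
      have h4 : c ∉ P.mrk t.1 := (mem_sdiff.mp hA).2
      have h5 := P.srv_pure t.1 h4
      rw [hc.2] at h5
      have h6 := Sum.inl.inj h5
      have h7 : t.2 = P.pi t.1 c := by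
        obtain ⟨i, g⟩ := t
        simp only [Sigma.mk.injEq, heq_eq_eq, true_and] at h6
        exact h6
      rw [h7]
      by_cases h8 : c < P.R * P.W
      · rw [P.pre_chain t.1 h8, P.pi_pre t.1 hA (P.pos_lt t.1 c) (P.pre_chain t.1 h8)]
      · have h9 : P.pre t.1 c = some (c % P.w t.1) := by
          unfold pre
          rw [if_neg h8, if_pos ⟨ht, h3⟩]
        rw [h9, P.pi_pre t.1 hA (Nat.mod_lt _ (P.hpos t.1 t.1.2)) h9]
  have h3 := P.card_S_long t.1 ht t.2
  rw [P.inc t] at h2
  omega

/-- **Forced**, for every lower part. -/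
theorem topB_forced (hw : ∀ i, i + 1 < P.R → P.w (i + 1) < P.w i)
    (t : ℕ → ℕ) (ht : ∀ i < P.R, ∑ q, P.u q i = t i)
    (lo : (c : Fin (P.lam 0)) → Fin ((P.topB m hm).len c - P.R) → Fin P.N) :
    (P.topB m hm).Forced t lo := by
  have hRpos := P.R_pos
  have hW0 : 0 < P.W := lt_of_lt_of_le (P.hpos 0 hRpos) (P.hW 0 hRpos)
  have hlong : P.R * P.W ≤ P.lam (P.R - 1) := by
    have := P.hroom
    omega
  have hlam0 : P.R * P.W ≤ P.lam 0 := hlong.trans (P.hlam (Nat.zero_le _))
  have hlam0' : 0 < P.lam 0 := lt_of_lt_of_le (Nat.mul_pos hRpos hW0) hlam0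
  have hanti : ∀ i j, i < j → j < P.R → P.w j < P.w i := by
    intro i j hij
    induction j, hij using Nat.le_induction with
    | base => intro hj; exact hw i hj
    | succ j _ ih =>
      intro hj
      exact lt_trans (hw j hj) (ih (by omega))
  have hcls : ∀ x : P.T, (x.1 : ℕ) < P.R := fun x => x.1.2
  have hcard : ∀ i : Fin P.R, (univ.filter fun x : P.T => (x.1 : ℕ) = i).card = P.w i := by
    intro i
    rw [← P.card_cls i]
    congr 1
    ext x
    simp [Fin.ext_iff]
  -- the chain columns
  let cc : ℕ → Fin (P.lam 0) := fun k => if h : k < P.lam 0 then ⟨k, h⟩ else ⟨0, hlam0'⟩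
  have hcc : ∀ k, k < P.R * P.W → ((cc k : Fin (P.lam 0)) : ℕ) = k := by
    intro k hk
    have : k < P.lam 0 := by omega
    simp only [cc, dif_pos this]
  refine (P.topB m hm).forced_of_chain hcls lo ?_ (P.R * P.W) (Nat.mul_pos hRpos hW0) cc ?_ ?_ ?_
    ?_ ?_
  · intro χ h1 h2 h3 h4
    refine (P.topB m hm).two_level hcls lo P.l P.K P.hlR.le ?_ ?_ ?_ ?_ χ h1 h3 (h4 P.l P.hlR.le)
    · intro x hx
      have e1 := P.shc_pure hm x hx
      have e2 := P.hcap1 x.1 hx
      omega
    · intro q
      rw [P.shc_free hm q]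
      exact P.hK q
    · intro _ q
      rw [P.shc_free hm q]
      have e1 := P.hu0 q
      have e2 : P.u q 0 ≤ ∑ i ∈ range P.l, P.u q i :=
        single_le_sum (f := fun i => P.u q i) (fun _ _ => Nat.zero_le _)
          (mem_range.2 P.hl)
      omega
    · rw [sum_congr rfl fun q _ => P.shc_free hm q, sum_comm]
      refine sum_le_sum fun i hi => ?_
      rw [mem_range] at hi
      rw [ht i (lt_trans hi P.hlR)]
  · intro k hk
    by_contra hcon
    rw [not_le] at hcon
    have h1 : (P.topB m hm).len (cc k) ≤ P.R - 1 := by omega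
    rw [P.len_le_iff hm, hcc k hk] at h1
    omega
  · intro k hk i hi
    refine ⟨⟨⟨i, hi⟩, ⟨P.pos ⟨i, hi⟩ k, P.pos_lt _ k⟩⟩, ?_, rfl⟩
    change P.srv (cc k) i = _
    rw [hcc k hk]
    exact P.srv_chain ⟨i, hi⟩ hk
  · intro k hk
    refine ⟨k % P.R, fun i hi hne => ?_⟩
    change P.srv (cc (k + 1)) i = P.srv (cc k) i
    rw [hcc (k + 1) hk, hcc k (by omega)]
    have e1 := P.srv_chain ⟨i, hi⟩ hk
    have e2 := P.srv_chain ⟨i, hi⟩ (show k < P.R * P.W by omega)
    refine e1.trans (Eq.trans ?_ e2.symm)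
    congr 2
    exact Fin.ext (P.pos_step k ⟨i, hi⟩ hne)
  · intro x
    obtain ⟨e1, e2⟩ := P.chain_cover x
    refine ⟨P.R * x.2 + x.1, e1, ?_⟩
    change P.srv (cc _) (x.1 : ℕ) = _
    rw [hcc _ e1]
    refine (P.srv_chain x.1 e1).trans ?_
    obtain ⟨i, g⟩ := x
    simp only [Sum.inl.injEq, Sigma.mk.injEq, heq_eq_eq, true_and]
    exact Fin.ext e2
  · intro i i' hii
    rw [hcard, hcard]
    exact hanti i i' hii i'.2

end DatB

end Vale.Agent.P181.H412
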